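import Vale.Agent.P307.R2.H718.Master
import Vale.Agent.P307.R2.H806.TwoTr
import Vale.Agent.P307.R2.H301.Din.Top

/-!
The induction on the dimension for an arbitrary statement about the base points, and the statement
used.
-/

universe u

open FirstOrder Cardinal Set Function Language

namespace Vale.Agent.P307.R2.H718

open Vale.Agent.P307 Vale.Agent.P307.H304 R2.H541 R2.H541.PG R2.H287 R2.H1 R2.H971 R2.H533

open scoped Classical

section

variable {L : Language.{u, u}} {K : AEC L} {ℓ : Cardinal.{u}}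
  {κf α : Cardinal.{u} → Cardinal.{u}}

variable (K ℓ κf α) in
/-- A statement on the rank, the dimension and the base point which goes from one dimension to the
next and implies the existence of the atomic tops. -/
structure Ladder (P : ℕ → ℕ → Cardinal.{u} → Prop) : Prop where
  zero : ∃ r, ∀ θ, Rk K ℓ κf α r θ → P r 0 θ
  step : ∀ k r, ∃ r', ∀ θ, Rk K ℓ κf α r' θ → (∀ τ ≤ θ, Rk K ℓ κf α r τ → P r k τ) →
    P r' (k + 1) θ
  tops : ∀ r k θ, P r k θ → Tops K ℓ κf α k θ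

/-- The induction on the dimension. -/
theorem Ladder.exists_rank {P : ℕ → ℕ → Cardinal.{u} → Prop} (h : Ladder K ℓ κf α P) (k : ℕ) :
    ∃ r : ℕ, ∀ θ, Rk K ℓ κf α r θ → P r k θ := by
  induction k with
  | zero => exact h.zero
  | succ k ih =>
    obtain ⟨r, hr⟩ := ih
    obtain ⟨r', hr'⟩ := h.step k r
    exact ⟨r', fun θ hθ => hr' θ hθ fun τ _ hτ => hr τ hτ⟩

/-- Atomic models over the boundaries of the prime systems. -/
theorem Frame.di_of_tops (hF : Frame K ℓ κf α)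
    (h : ∀ k, ∃ r, ∀ θ, Rk K ℓ κf α r θ → Tops K ℓ κf α k θ) {θ : Cardinal.{u}}
    (hθ : ∀ m, Rk K ℓ κf α m θ) (h₀ : BasePt K ℓ κf α θ) (hK : K.IsLS ℓ)
    (hunb : ∀ ν, ν < κf ν ∧ K.CategoricalIn (κf ν)) (hst : Stab K ℓ α (H287.thr κf))
    {C : Type u} [L.Structure C] (hCm : K.mem C) (hs : Sat K θ C) (hCc : #C = Order.succ θ) :
    (pg h₀ hK hunb hst hCm hs hCc).DI := by
  obtain ⟨Λ, hθΛ, hΛ⟩ := hF.exists_gt θ
  refine di_of_pt (pg_calc h₀ hK hunb hst hCm hs hCc) ?_ fun k _ => ?_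
  · rintro P ⟨D, hD, hDc, rfl⟩ x
    obtain ⟨N, hN⟩ := pg_di1 h₀ hK hunb hst hCm hs hCc hΛ hθΛ hD hDc (fun _ : PUnit.{u + 1} => x)
    refine ⟨N, ?_⟩
    rwa [range_const] at hN
  · obtain ⟨r, hr⟩ := h k
    exact (hr θ (hθ r) h₀ hK hunb hst C hCm hs hCc C k le_rfl).pt

/-- The inputs from the atomic tops. -/
theorem Frame.inputs_of_tops (hF : Frame K ℓ κf α)
    (h : ∀ k, ∃ r, ∀ θ, Rk K ℓ κf α r θ → Tops K ℓ κf α k θ) :
    ∃ g : Cardinal.{u} → Cardinal.{u}, ∀ θ, ℓ < θ → θ.ord.cof = ℵ₀ →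
      (∀ ρ < θ, gB κf α ρ < θ) → (∀ ρ < θ, g ρ < θ) → Inputs K ℓ κf α θ := by
  obtain ⟨g₁, h1⟩ := exists_rk K ℓ κf α
  obtain ⟨g₂, h2⟩ := H578.exists_mini (K := K) (ℓ := ℓ) (κf := κf) (α := α)
  refine ⟨fun ρ => max (g₁ ρ) (g₂ ρ), fun θ hθ hcof hgB hg h₀ hK hunb hst C _ hCm hs hCc => ?_⟩
  exact ⟨hF.di_of_tops h (h1 θ h₀ fun ρ hρ => (le_max_left _ _).trans_lt (hg ρ hρ)) h₀ hK hunb hst
    hCm hs hCc, h2 θ hθ (fun ρ hρ => (le_max_right _ _).trans_lt (hg ρ hρ)) h₀ hK hunb hst C hCm hs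
    hCc⟩

end

/-- **The question** from the atomic tops. -/
theorem q1_of_tops (H : ∀ (L : Language.{u, u}) (K : AEC L) (ℓ : Cardinal.{u})
      (κf α : Cardinal.{u} → Cardinal.{u}), Frame K ℓ κf α →
        ∀ k, ∃ r, ∀ θ, Rk K ℓ κf α r θ → Tops K ℓ κf α k θ)
    (l : Cardinal.{u}) :
    ∃ μ : Cardinal.{u}, l ≤ μ ∧ ∀ (L : Language.{u, u}) (K : AEC L), K.LS ≤ l →
      ∀ κ, μ ≤ κ → K.CategoricalIn κ → ∀ κ', μ ≤ κ' → K.CategoricalIn κ' :=
  H427.q1_of_geo (fun L K hcat => hasGeo_of_inputs' hcat fun ℓ κf α hF =>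
    hF.inputs_of_tops (H L K ℓ κf α hF)) l

/-- **The question** from a ladder. -/
theorem q1_of_ladder (H : ∀ (L : Language.{u, u}) (K : AEC L) (ℓ : Cardinal.{u})
      (κf α : Cardinal.{u} → Cardinal.{u}), Frame K ℓ κf α → ∃ P, Ladder K ℓ κf α P)
    (l : Cardinal.{u}) :
    ∃ μ : Cardinal.{u}, l ≤ μ ∧ ∀ (L : Language.{u, u}) (K : AEC L), K.LS ≤ l →
      ∀ κ, μ ≤ κ → K.CategoricalIn κ → ∀ κ', μ ≤ κ' → K.CategoricalIn κ' :=
  q1_of_tops (fun L K ℓ κf α hF k => by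
    obtain ⟨P, hP⟩ := H L K ℓ κf α hF
    obtain ⟨r, hr⟩ := hP.exists_rank k
    exact ⟨r, fun θ hθ => hP.tops r k θ (hr θ hθ)⟩) l

/-! ### The statement -/

section

variable {L : Language.{u, u}} (K : AEC L) (ℓ : Cardinal.{u})
  (κf α : Cardinal.{u} → Cardinal.{u})

/-- A property of the geometry of the saturated members of size `θ⁺`. -/
def AllPG (θ : Cardinal.{u}) (Φ : ∀ C : Type u, PG C → Prop) : Prop :=
  ∀ (h₀ : BasePt K ℓ κf α θ) (hK : K.IsLS ℓ) (hunb : ∀ ν, ν < κf ν ∧ K.CategoricalIn (κf ν))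
    (hst : Stab K ℓ α (H287.thr κf)) (C : Type u) [L.Structure C] (hCm : K.mem C)
    (hs : Sat K θ C) (hCc : #C = Order.succ θ), Φ C (pg h₀ hK hunb hst hCm hs hCc)

/-- Tameness over the boundaries of dimension at most `k + 1`. -/
def TmD (k : ℕ) (θ : Cardinal.{u}) : Prop :=
  AllPG K ℓ κf α θ fun C M => ∀ (ι : Type u) (A : Finset ι → Set C) (S : Finset ι) (c : ι),
    S.card ≤ k → Ext1 M A S c → M.Tm (ibd A (insert c S))

/-- Joint reflection of the boundaries into their closed traces, over the closed traces of the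
models which contain them, at the base points of rank `r` below `θ`. -/
def JrD (r k : ℕ) (θ : Cardinal.{u}) : Prop :=
  AllPG K ℓ κf α θ fun C M => ∀ (ι : Type u) (A : Finset ι → Set C) (S : Finset ι) (c : ι),
    S.card ≤ k → Ext1 M A S c → ∀ N ∈ M.S, ibd A (insert c S) ⊆ N →
      ∀ τ < θ, Rk K ℓ κf α r τ → ∃ φ : Finset C → Set C, (∀ s, #(φ s) ≤ τ) ∧
        ∀ H, H68.Clo φ H → #H ≤ τ → M.JR τ A (insert c S).ssubsets H (N ∩ H)

/-- Shrinking of the isolating sets over the boundaries, at the base points of rank `r` below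
`θ`. -/
def ShD (r k : ℕ) (θ : Cardinal.{u}) : Prop :=
  AllPG K ℓ κf α θ fun C M => ∀ (ι : Type u) (A : Finset ι → Set C) (S : Finset ι) (c : ι),
    S.card ≤ k → Ext1 M A S c → ∀ N ∈ M.S, ibd A (insert c S) ⊆ N →
      ∀ τ < θ, Rk K ℓ κf α r τ → ∃ φ : Finset C → Set C,
        H301.TrN M τ (ibd A (insert c S)) N φ

/-- The statement of the induction. -/
structure PP (r k : ℕ) (θ : Cardinal.{u}) : Prop where
  tops : Tops K ℓ κf α k θ
  tm : TmD K ℓ κf α k θ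
  jr : JrD K ℓ κf α r k θ
  sh : ShD K ℓ κf α r k θ

end

end Vale.Agent.P307.R2.H718
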