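import Vale.Agent.P307.Bdl.B1
import Mathlib.ModelTheory.DirectLimit

/-! Direct limits of strong embeddings. -/

universe u

open FirstOrder Cardinal Set Function Language

namespace Vale.Agent.P307.R2.H718

variable {L : Language.{u, u}}

/-- The direct limit of a directed system of strong embeddings. -/
theorem exists_dirLimit {K : AEC L} {ι : Type u} [Preorder ι] [IsDirectedOrder ι] [Nonempty ι]
    (G : ι → Type u) [∀ i, L.Structure (G i)] (f : ∀ i j, i ≤ j → G i ↪[L] G j)
    (hself : ∀ i x, f i i le_rfl x = x)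
    (hcomp : ∀ i j k (hij : i ≤ j) (hjk : j ≤ k) x, f j k hjk (f i j hij x) = f i k (hij.trans hjk) x)
    (hK : ∀ i j h, K.Emb (f i j h)) :
    ∃ (N : Type u) (_ : L.Structure N) (g : ∀ i, G i ↪[L] N), K.mem N ∧ (∀ i, K.Emb (g i)) ∧
      (∀ i j (h : i ≤ j) x, g j (f i j h x) = g i x) ∧ ∀ y, ∃ i x, g i x = y := by
  have hd : DirectedSystem G fun i j h => f i j h :=
    ⟨fun i x => hself i x, fun i j k hij hjk x => hcomp _ _ _ hij hjk x⟩
  let N := Language.DirectLimit G f
  let g : ∀ i, G i ↪[L] N := fun i => Language.DirectLimit.of L ι G f i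
  have hg : ∀ i j (h : i ≤ j) x, g j (f i j h x) = g i x := fun i j h x =>
    Language.DirectLimit.of_f
  have hcov : ∀ y : N, ∃ i x, g i x = y := fun y => Language.DirectLimit.exists_of y
  let F : ι → L.Substructure N := fun i => (g i).toHom.range
  have hm : Monotone F := by
    rintro i j hij _ ⟨x, rfl⟩
    refine ⟨f i j hij x, ?_⟩
    exact hg i j hij x
  have hsle : ∀ i j, i ≤ j → K.sle (F i) (F j) := by
    intro i j hij
    refine ⟨hm hij, ?_⟩
    have hi : K.mem (F i) := K.mem_iso (g i).equivRange (hK i j hij).mem_left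
    have h1 : K.Emb (g i).equivRange.symm.toEmbedding := AEC.Emb.of_equiv _ hi
    have h2 : K.Emb (g j).equivRange.toEmbedding := AEC.Emb.of_equiv _ (hK i j hij).mem_right
    have h3 := (h2.comp (hK i j hij)).comp h1
    convert h3 using 1
    refine Embedding.ext fun y => Subtype.ext ?_
    obtain ⟨x, hx⟩ := (g i).equivRange.surjective y
    subst hx
    change (((g i).equivRange x : F i) : N) = g j (f i j hij ((g i).equivRange.symm
      ((g i).equivRange x)))
    rw [Language.Equiv.symm_apply_apply, hg, Embedding.equivRange_apply]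
  obtain ⟨h1, h2⟩ := AEC.mem_of_directed_union (K := K) F hm hsle fun y => by
    obtain ⟨i, x, hx⟩ := hcov y
    exact ⟨i, x, hx⟩
  exact ⟨N, inferInstance, g, h1, h2, hg, hcov⟩

end Vale.Agent.P307.R2.H718
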