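import Vale.Agent.P307.R2.H718.QSys
import Vale.Agent.P307.R2.H718.Dir
import Vale.Agent.P307.R2.H971.Mon

/-!
Free systems of arbitrary size over a strong substructure `P`: they realize all types over `P`, if
all large members are saturated over their strong substructures of size `θ`.
-/

universe u

open FirstOrder Cardinal Set Function Language

namespace Vale.Agent.P307.R2.H718

open R2.H427 (IsoOn exists_finset_rec)
open R2.H971 (Sat)
open scoped Classical

variable {L : Language.{u, u}} {M : Type u} [L.Structure M]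

namespace QSys

variable {K : AEC L} {l : Cardinal.{u}} {P : L.Substructure M} (C : QSys K l P) {X : Type u}

/-- The member built from a coherent family of systems on the finite subsets of `X`. -/
theorem exists_member (X : Type u) : ∃ (D : Finset X → Dat L M X) (N : Type u)
    (_ : L.Structure N) (g : ∀ u, top D u ↪[L] N), (∀ u, C.Coh D u) ∧ K.mem N ∧
      (∀ u, K.Emb (g u)) ∧ (∀ y, ∃ u x, g u x = y) ∧
      (∀ t u, t ⊆ u → ∀ x : top D t, ∃ h : (D u).2.2 t x ∈ top D u,
        g u ⟨(D u).2.2 t x, h⟩ = g t x) ∧ #X ≤ #N := by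
  obtain ⟨D, hD⟩ := C.exists_coh X
  have hle : ∀ u, K.le (top D u) := fun u => C.le (hD u).ps
  have hsub : ∀ t u, t ⊆ u → (D u).1 (t.image (D u).2.1) ≤ top D u := fun t u h =>
    C.sub (hD u).ps (Finset.image_subset_image h)
  -- the maps
  have hf : ∀ t u, t ≤ u → ∃ f : top D t ↪[L] top D u, K.Emb f ∧
      ∀ x, (f x : M) = (D u).2.2 t x := by
    intro t u h
    obtain ⟨φ, hφ⟩ := (hD u).iso t h
    have h1 : K.le ((D u).1 (t.image (D u).2.1)) :=
      C.le (C.mono (hD u).ps (Finset.image_subset_image h))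
    obtain ⟨h2, h3⟩ := AEC.sle_of_le_le (hsub t u h) h1 (hle u)
    exact ⟨(Substructure.inclusion h2).comp φ.toEmbedding,
      h3.comp (AEC.Emb.of_equiv φ (K.mem_of_le _ (hle t)).1), hφ⟩
  choose f hfK hf using hf
  obtain ⟨N, hN, g, h1, h2, h3, h4⟩ := exists_dirLimit (K := K) (ι := Finset X)
    (fun u => (top D u : Type u)) f
    (fun u x => Subtype.ext (by rw [hf, (hD u).self]))
    (fun t u v htu huv x => Subtype.ext (by
      rw [hf, hf, hf, (hD v).comp u huv t htu x x.2])) hfK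
  have h5 : ∀ t u, t ⊆ u → ∀ x : top D t, ∃ h : (D u).2.2 t x ∈ top D u,
      g u ⟨(D u).2.2 t x, h⟩ = g t x := by
    intro t u h x
    refine ⟨?_, ?_⟩
    · rw [← hf t u h]
      exact (f t u h x).2
    · rw [← h3 t u h x]
      congr 1
      exact Subtype.ext (hf t u h x).symm
  refine ⟨D, N, hN, g, hD, h1, h2, h4, h5, ?_⟩
  -- the marks
  have hm : ∀ u x, x ∈ u → (D u).2.1 x ∈ top D u := fun u x hx =>
    C.mem (hD u).ps _ (Finset.mem_image_of_mem _ hx)
  refine mk_le_of_injective (f := fun x : X => g {x} ⟨(D {x}).2.1 x,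
    hm _ _ (Finset.mem_singleton_self x)⟩) fun x y hxy => ?_
  have h6 : ∀ z (u : Finset X) (hz : z ∈ u), g {z} ⟨(D {z}).2.1 z,
      hm _ _ (Finset.mem_singleton_self z)⟩ = g u ⟨(D u).2.1 z, hm _ _ hz⟩ := by
    intro z u hz
    obtain ⟨h7, h8⟩ := h5 {z} u (Finset.singleton_subset_iff.2 hz) ⟨(D {z}).2.1 z,
      hm _ _ (Finset.mem_singleton_self z)⟩
    rw [← h8]
    congr 1
    exact Subtype.ext ((hD u).mark {z} (Finset.singleton_subset_iff.2 hz) z
      (Finset.mem_singleton_self z))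
  have hx : x ∈ ({x, y} : Finset X) := by simp
  have hy : y ∈ ({x, y} : Finset X) := by simp
  change g {x} _ = g {y} _ at hxy
  rw [h6 x {x, y} hx, h6 y {x, y} hy] at hxy
  exact (hD {x, y}).inj (by exact_mod_cast hx) (by exact_mod_cast hy)
    (congrArg Subtype.val ((g {x, y}).injective hxy))

variable {ℓ θ T : Cardinal.{u}}

/-- **Every type over `P` is realized in a free system**, if the members of size at least `T` are
saturated. -/
theorem exists_realized {P : L.Substructure M} (C : QSys K θ P) (hK : K.IsLS ℓ) (hℓ : ℓ ≤ θ)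
    (hP : #P = θ) (hM : #M = Order.succ θ) (hs : Sat K θ M)
    (hT : ∀ (N : Type u) [L.Structure N], K.mem N → T ≤ #N → Sat K θ N) (b : M) :
    ∃ (A : Finset M → L.Substructure M) (s : Finset M) (σ : M ≃[L] M), C.PS A s ∧
      (∀ a, a ∈ P → σ a = a) ∧ σ b ∈ A s := by
  have hθ : ℵ₀ ≤ θ := hK.1.trans hℓ
  have hPle : K.le P := C.le (C.empty (A := fun _ => P) rfl)
  have hMK : K.mem M := (K.mem_of_le _ hPle).2
  obtain ⟨X, hXc⟩ : ∃ X : Type u, #X = max θ T := ⟨_, mk_out _⟩
  obtain ⟨D, N, _, g, hD, hN, hgK, hcov, hcoh, hX⟩ := C.exists_member X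
  rw [hXc] at hX
  have hNs : Sat K θ N := hT N hN ((le_max_right _ _).trans hX)
  have htop : ∀ u, P ≤ top D u := fun u => C.P_le (hD u).ps
  have hcard : ∀ u, #(top D u) = θ := fun u => _root_.le_antisymm (C.card (hD u).ps)
    (hP.ge.trans (mk_le_mk_of_subset (htop u)))
  -- the base
  have h0 := AEC.sle_of_le_le (htop ∅) hPle (C.le (hD ∅).ps)
  let i₀ : P ↪[L] N := (g ∅).comp (Substructure.inclusion (htop ∅))
  have hi₀ : K.Emb i₀ := (hgK ∅).comp h0.2
  obtain ⟨W, hW, hWs, hWc⟩ := H971.exists_sub_of_small hK hℓ hMK (by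
    rw [hM]
    exact Order.le_succ θ) ((P : Set M) ∪ {b}) (by
      refine (mk_union_le _ _).trans ?_
      rw [mk_singleton]
      refine add_le_of_le hθ ?_ (one_le_aleph0.trans hθ)
      exact hP.le)
  have hPW : P ≤ W := fun x hx => hWs (Or.inl hx)
  have hbW : b ∈ W := hWs (Or.inr rfl)
  have hPWs := AEC.sle_of_le_le hPW hPle hW
  obtain ⟨j, hj, hji⟩ := hNs P W i₀ (Substructure.inclusion hPW) hi₀ hPWs.2 hP hWc
  obtain ⟨u, x, hux⟩ := hcov (j ⟨b, hbW⟩)
  obtain ⟨Y, hY, hYs, hYc⟩ := H971.exists_sub_of_small hK hℓ hN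
    ((le_max_left _ _).trans hX) (range j ∪ range (g u)) (by
      refine (mk_union_le _ _).trans (add_le_of_le hθ ?_ ?_)
      · exact mk_range_le.trans hWc.le
      · exact mk_range_le.trans (hcard u).le)
  have hjY : ∀ w, j w ∈ Y := fun w => hYs (Or.inl ⟨w, rfl⟩)
  have hgY : ∀ w, g u w ∈ Y := fun w => hYs (Or.inr ⟨w, rfl⟩)
  let j' : W ↪[L] Y := j.codRestrict Y hjY
  let g' : top D u ↪[L] Y := (g u).codRestrict Y hgY
  have hj' : K.Emb j' := AEC.Emb.of_comp (g := Y.subtype) (AEC.emb_subtype.2 hY) (by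
    have h1 : Y.subtype.comp j' = j := Embedding.ext fun _ => rfl
    rw [h1]
    exact hj)
  have hg' : K.Emb g' := AEC.Emb.of_comp (g := Y.subtype) (AEC.emb_subtype.2 hY) (by
    have h1 : Y.subtype.comp g' = g u := Embedding.ext fun _ => rfl
    rw [h1]
    exact hgK u)
  obtain ⟨k, hk, hkg⟩ := hs (top D u) Y (top D u).subtype g'
    (AEC.emb_subtype.2 (C.le (hD u).ps)) hg' (hcard u) hYc
  let kj : W ↪[L] M := k.comp j'
  have hkj : K.Emb kj := hk.comp hj'
  obtain ⟨σ, hσ⟩ := hs.exists_aut hK hℓ hM W kj.toHom.range hW hkj hWc kj.equivRange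
  refine ⟨(D u).1, u.image (D u).2.1, σ, (hD u).ps, fun a ha => ?_, ?_⟩
  · have h1 := hσ ⟨a, hPW ha⟩
    rw [Embedding.equivRange_apply] at h1
    change σ a = k (j' ⟨a, hPW ha⟩) at h1
    rw [h1]
    obtain ⟨h2, h3⟩ := hcoh ∅ u (Finset.empty_subset u) ⟨a, htop ∅ ha⟩
    have h4 : j' ⟨a, hPW ha⟩ = g' ⟨(D u).2.2 ∅ a, h2⟩ := by
      refine Subtype.ext ?_
      change j ⟨a, hPW ha⟩ = g u ⟨(D u).2.2 ∅ a, h2⟩
      rw [h3]
      exact hji ⟨a, ha⟩
    rw [h4, hkg]
    exact (hD u).fix ∅ (Finset.empty_subset u) a ha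
  · have h1 := hσ ⟨b, hbW⟩
    rw [Embedding.equivRange_apply] at h1
    change σ b = k (j' ⟨b, hbW⟩) at h1
    rw [h1]
    have h4 : j' ⟨b, hbW⟩ = g' x := Subtype.ext hux.symm
    rw [h4, hkg]
    exact x.2

/-- **No Vaughtian pairs.** If the elements of `Q` in the free systems over `V` are in `V`, then
all elements of `Q` are in `V`. -/
theorem no_vaughtian {V : L.Substructure M} (C : QSys K θ V) (hK : K.IsLS ℓ) (hℓ : ℓ ≤ θ)
    (hV : #V = θ) (hM : #M = Order.succ θ) (hs : Sat K θ M)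
    (hT : ∀ (N : Type u) [L.Structure N], K.mem N → T ≤ #N → Sat K θ N) {Q : Set M}
    (hQ : ∀ σ : M ≃[L] M, (∀ a, a ∈ V → σ a = a) → ∀ y, y ∈ Q → σ y ∈ Q)
    (hom : ∀ (A : Finset M → L.Substructure M) (s : Finset M) (x : M), x ∉ s →
      C.PS A (insert x s) → ∀ y, y ∈ Q → y ∈ A (insert x s) → y ∈ A s) {y : M} (hy : y ∈ Q) :
    y ∈ V := by
  obtain ⟨A, s, σ, h1, h2, h3⟩ := C.exists_realized hK hℓ hV hM hs hT y
  have h4 : ∀ s : Finset M, C.PS A s → ∀ z, z ∈ Q → z ∈ A s → z ∈ V := by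
    intro s
    induction s using Finset.induction_on with
    | empty =>
      intro h z _ hz
      rwa [C.bot h] at hz
    | insert x s hx ih =>
      intro h z hzQ hz
      exact ih (C.mono h (Finset.subset_insert x s)) z hzQ (hom A s x hx h z hzQ hz)
  have h5 := h4 s h1 _ (hQ σ h2 y hy) h3
  have h6 : σ.symm (σ y) ∈ V := by
    have h7 := h2 _ h5
    have h8 : σ.symm (σ y) = σ y := by
      conv_lhs => rw [← h7]
      rw [Language.Equiv.symm_apply_apply]
    rw [h8]
    exact h5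
  rwa [Language.Equiv.symm_apply_apply] at h6

end QSys

end Vale.Agent.P307.R2.H718
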