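import Vale.Agent.P307.R2.H718.GeoB
import Vale.Agent.P307.R2.H718.Nv
import Vale.Agent.P307.R2.H427.Fin

/-!
No Vaughtian pairs for a minimal type in the saturated member of size `θ⁺`, and the good geometry.
-/

set_option linter.unusedSectionVars false

universe u

open FirstOrder Cardinal Set Function Language

namespace Vale.Agent.P307.R2.H718

open R2.H427 (IsoOn Geo CrossIso Mon HasGeo)
open Vale.Agent.P307 Vale.Agent.P307.H304 R2.H541 R2.H541.PG R2.H287 R2.H1 R2.H971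
open scoped Classical

variable {L : Language.{u, u}} {K : AEC L} {ℓ θ : Cardinal.{u}}
  {κf α : Cardinal.{u} → Cardinal.{u}} {C : Type u} [L.Structure C]
  (h₀ : BasePt K ℓ κf α θ) (hK : K.IsLS ℓ)
  (hunb : ∀ ν, ν < κf ν ∧ K.CategoricalIn (κf ν)) (hst : Stab K ℓ α (H287.thr κf))
  (hCm : K.mem C) (hs : Sat K θ C) (hCc : #C = Order.succ θ)

omit [L.Structure C] in
theorem isLS_mono (hK : K.IsLS ℓ) (h : ℓ ≤ θ) : K.IsLS θ := by
  refine ⟨hK.1.trans h, hK.2.1.trans h, fun N _ hN A => ?_⟩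
  obtain ⟨S, h1, h2, h3⟩ := hK.2.2 N hN A
  exact ⟨S, h1, h2, h3.trans (add_le_add_right h _)⟩

include h₀ hK hunb hst hCm hs hCc

/-- Strong submodels of size `θ` are conjugate over small subsets. -/
theorem pg_conjS : ConjS (pg h₀ hK hunb hst hCm hs hCc) := by
  rintro N N' p ⟨D, hD, hDc, rfl⟩ ⟨E, hE, hEc, rfl⟩ hpN hpN' hp
  have hp' : #p < θ := hp
  have hℓθ : ℓ < θ := h₀.pt.lt
  let σ : Cardinal.{u} := max ℓ #p
  have hσ : ℓ ≤ σ := le_max_left _ _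
  have hσθ : σ < θ := max_lt hℓθ hp'
  have hpσ : #p ≤ σ := le_max_right _ _
  have hσα : σ ≤ α σ := (hst σ hσ).1
  have hαθ : α σ < θ := h₀.al σ hσθ
  have hα0 : ℵ₀ ≤ α σ := hK.1.trans (hσ.trans hσα)
  let r : p → D := fun z => ⟨z, hpN z.2⟩
  let r' : p → E := fun z => ⟨z, hpN' z.2⟩
  have h1 := EqS.map_emb hK hunb (hσ.trans hσα) D.subtype (AEC.emb_subtype.2 hD)
    ((h₀.pt.thr _ hαθ).le.trans hDc.ge) (hpσ.trans hσα) r
  have h2 := EqS.map_emb hK hunb (hσ.trans hσα) E.subtype (AEC.emb_subtype.2 hE)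
    ((h₀.pt.thr _ hαθ).le.trans hEc.ge) (hpσ.trans hσα) r'
  have h3 : EqS L (α σ) r r' := h1.trans h2.symm
  obtain ⟨e, he⟩ := H514.exists_iso_small h₀ hK hst hσ hσθ (K.mem_of_le _ hD).1
    (K.mem_of_le _ hE).1 hDc hEc hpσ r r' h3
  obtain ⟨g, hg⟩ := hs.exists_aut hK hℓθ.le hCc D E hD hE hDc e
  refine ⟨g.toEquiv, mem_autG g, fun a ha => ?_, ?_⟩
  · change g a = a
    have h4 := hg ⟨a, hpN ha⟩
    rw [show e ⟨a, hpN ha⟩ = r' ⟨a, ha⟩ from he ⟨a, ha⟩] at h4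
    exact h4
  · ext x
    constructor
    · rintro ⟨a, ha, rfl⟩
      change g a ∈ (E : Set C)
      rw [hg ⟨a, ha⟩]
      exact (e ⟨a, ha⟩).2
    · intro hx
      refine ⟨e.symm ⟨x, hx⟩, (e.symm ⟨x, hx⟩).2, ?_⟩
      change g (e.symm ⟨x, hx⟩ : D) = x
      rw [hg, e.apply_symm_apply]

variable (hDI : (pg h₀ hK hunb hst hCm hs hCc).DI) {p Q : Set C}
  (hQ : Mini (pg h₀ hK hunb hst hCm hs hCc) p Q)

include hDI hQ

/-- **No Vaughtian pairs.** -/
theorem nv_of_mini {N N' : L.Substructure C} (hN : K.le N) (hN' : K.le N') (hNc : #N = θ)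
    (hNc' : #N' = θ) (hpN : p ⊆ N) (hNN : N ≤ N') (hQN : ∀ y, y ∈ Q → y ∈ N' → y ∈ N) :
    N = N' := by
  by_contra hne
  have h1 : ∃ a, a ∈ N' ∧ a ∉ N := by
    by_contra h2
    push Not at h2
    exact hne (_root_.le_antisymm hNN h2)
  obtain ⟨a, haN', haN⟩ := h1
  have hNS := pg_mem' h₀ hK hunb hst hCm hs hCc hN hNc
  have hNS' := pg_mem' h₀ hK hunb hst hCm hs hCc hN' hNc'
  obtain ⟨y, hyQ, hyN⟩ := hQ.unb hNS hpN
  refine hyN ?_
  refine QSys.no_vaughtian (θ := θ) (T := H287.thr κf θ)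
    (qsys h₀ hK hunb hst hCm hs hCc hDI N hN hNc a haN) hK h₀.pt.lt.le hNc hCc hs
    (fun M _ _ hM => h₀.sat hK hunb hM) (Q := Q) ?_ ?_ hyQ
  · intro σ hσ z hz
    exact hQ.inv σ.toEquiv (mem_autG σ) (fun c hc => hσ c (hpN hc)) z hz
  · rintro A s x hxs ⟨hA, hA0, hAx⟩ z hz hzA
    exact vaught_step (pg_calc h₀ hK hunb hst hCm hs hCc) hDI
      (pg_conjS h₀ hK hunb hst hCm hs hCc) hQ hNS hNS' hpN hNN
      (fun y hy hyN => hQN y hy hyN) haN' hxs hA (by rw [hA0])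
      (hAx x (Finset.mem_insert_self x s)) z hz hzA

/-- **The good geometry** from atomic models over the boundaries of independent systems and a
minimal type. -/
theorem hasGeo_of_mini : HasGeo K := by
  have hθ := aleph0_le_pt h₀ hK
  obtain ⟨P, hP, hPc, hpP⟩ := pg_ls h₀ hK hCm hCc (X := p) hQ.small.le
  have hnv : ∀ {N N' : L.Substructure C}, K.le N → K.le N' → #N' ≤ θ → P ≤ N → N ≤ N' →
      (∀ y, y ∈ Q → y ∈ N' → y ∈ N) → N = N' := by
    intro N N' hN hN' hNc hPN hNN h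
    have h1 : #N = θ := _root_.le_antisymm ((mk_le_mk_of_subset hNN).trans hNc) (by
      rw [← hPc]
      exact mk_le_mk_of_subset hPN)
    have h2 : #N' = θ := _root_.le_antisymm hNc (by
      rw [← h1]
      exact mk_le_mk_of_subset hNN)
    exact nv_of_mini h₀ hK hunb hst hCm hs hCc hDI hQ hN hN' h1 h2 (hpP.trans hPN) hNN h
  exact ⟨θ, C, inferInstance, P, Q \ P,
    geoQ h₀ hK hunb hst hCm hs hCc hDI hQ P hP hPc hpP hnv,
    isLS_mono hK h₀.pt.lt.le, h₀.pt.cat,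
    mon_of_sat h₀ hK hCm hs hCc, hPc, hP,
    geoQ_inv h₀ hK hunb hst hCm hs hCc hDI hQ P hP hPc hpP hnv,
    geoQ_crossIso h₀ hK hunb hst hCm hs hCc hDI hQ P hP hPc hpP hnv⟩

end Vale.Agent.P307.R2.H718
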