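import Vale.Agent.P307.H67.Thresh

/-!
The uniform statement of eventual categoricity from the statement for one class.
-/

universe u

open FirstOrder Cardinal Set

namespace Vale.Agent.P307.R2.H718

/-- A class which is categorical in one sufficiently large cardinal is categorical in arbitrarily
large cardinals. -/
theorem exists_unbounded (l : Cardinal.{u}) : ∃ μ : Cardinal.{u}, l ≤ μ ∧
    ∀ (L : Language.{u, u}) (K : AEC L), K.LS ≤ l → ∀ κ₀, μ ≤ κ₀ → K.CategoricalIn κ₀ →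
      ∀ ν : Cardinal.{u}, ∃ κ, ν < κ ∧ K.CategoricalIn κ := by
  obtain ⟨Λ, hΛ⟩ : ∃ Λ : Type u, #Λ = l := ⟨l.out, mk_out l⟩
  have h : ∀ c : CodeTy Λ, ∃ ν : Cardinal.{u}, (∃ κ, ν < κ ∧ κ ∈ spec c) →
      ∀ ν' : Cardinal.{u}, ∃ κ, ν' < κ ∧ κ ∈ spec c := by
    intro c
    by_cases hb : ∃ ν : Cardinal.{u}, ∀ κ, ν < κ → κ ∉ spec c
    · obtain ⟨ν, hν⟩ := hb
      exact ⟨ν, fun ⟨κ, h1, h2⟩ => absurd h2 (hν κ h1)⟩
    · push Not at hb
      exact ⟨0, fun _ => hb⟩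
  choose ν hν using h
  have hbdd : BddAbove (Set.range ν) := bddAbove_of_small
  refine ⟨max l (Order.succ (⨆ c, ν c)), le_max_left _ _, fun L K hK κ₀ hκ₀ hcat ν' => ?_⟩
  have hLS : K.IsLS #Λ := AEC.isLS_of_LS_le (hK.trans hΛ.ge)
  obtain ⟨c, hc, -⟩ := exists_code K hLS
  have h1 : ν c < κ₀ := (le_ciSup hbdd c).trans_lt
    ((Order.lt_succ _).trans_le ((le_max_right _ _).trans hκ₀))
  obtain ⟨κ, h2, h3⟩ := hν c ⟨κ₀, h1, (hc κ₀).2 hcat⟩ ν'
  exact ⟨κ, h2, (hc κ).1 h3⟩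

/-- **Q1** from: every class which is categorical in arbitrarily large cardinals is categorical in
all sufficiently large cardinals. -/
theorem q1_of_eventually
    (hE : ∀ (ℓ : Cardinal.{u}) (L : Language.{u, u}) (K : AEC L), K.IsLS ℓ →
      (∀ ν : Cardinal.{u}, ∃ κ, ν < κ ∧ K.CategoricalIn κ) →
        ∃ χ : Cardinal.{u}, ∀ κ, χ ≤ κ → K.CategoricalIn κ) (l : Cardinal.{u}) :
    ∃ μ : Cardinal.{u}, l ≤ μ ∧ ∀ (L : Language.{u, u}) (K : AEC L), K.LS ≤ l →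
      ∀ κ : Cardinal.{u}, μ ≤ κ → K.CategoricalIn κ → ∀ κ' : Cardinal.{u}, μ ≤ κ' →
        K.CategoricalIn κ' := by
  obtain ⟨μ₀, hμ₀, h1⟩ := H67.exists_threshold l
  obtain ⟨μ₁, -, h2⟩ := exists_unbounded l
  refine ⟨max μ₀ μ₁, hμ₀.trans (le_max_left _ _), fun L K hK κ hκ hcat κ' hκ' => ?_⟩
  exact h1 L K hK (hE l L K (AEC.isLS_of_LS_le hK)
    (h2 L K hK κ ((le_max_right _ _).trans hκ) hcat)) κ' ((le_max_left _ _).trans hκ')

end Vale.Agent.P307.R2.H718
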