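import Vale.Agent.P307.R2.H578.Min4
import Vale.Agent.P307.R2.H533.Pt
import Vale.Agent.P307.R2.H541.Di1

/-!
The outer frame of the last step: the ranks of the base points, the induction on the dimension, and
the question from one step of the induction.
-/

universe u

open FirstOrder Cardinal Set Function Language

namespace Vale.Agent.P307.R2.H718

open R2.H427 (HasGeo)
open Vale.Agent.P307 Vale.Agent.P307.H304 R2.H541 R2.H541.PG R2.H287 R2.H1 R2.H971 R2.H533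

open scoped Classical

/-- The standing assumptions. -/
structure Frame {L : Language.{u, u}} (K : AEC L) (ℓ : Cardinal.{u})
    (κf α : Cardinal.{u} → Cardinal.{u}) : Prop where
  ls : K.IsLS ℓ
  unb : ∀ ν, ν < κf ν ∧ K.CategoricalIn (κf ν)
  stab : Stab K ℓ α (H287.thr κf)
  base : ∀ θ, ℓ < θ → θ.ord.cof = ℵ₀ → (∀ ρ < θ, gB κf α ρ < θ) → BasePt K ℓ κf α θ

section

variable {L : Language.{u, u}} {K : AEC L} {ℓ : Cardinal.{u}}
  {κf α : Cardinal.{u} → Cardinal.{u}}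

/-- There are base points above every cardinal. -/
theorem Frame.exists_gt (hF : Frame K ℓ κf α) (μ : Cardinal.{u}) :
    ∃ Λ, μ < Λ ∧ BasePt K ℓ κf α Λ := by
  obtain ⟨Λ, h1, h2, h3⟩ := H301.exists_closure_cof (gB κf α) (max ℓ μ)
  exact ⟨Λ, (le_max_right _ _).trans_lt h1, hF.base Λ ((le_max_left _ _).trans_lt h1) h3 h2⟩

variable (K ℓ κf α) in
/-- The iterated limits of base points. -/
def Rk : ℕ → Cardinal.{u} → Prop
  | 0, θ => BasePt K ℓ κf α θ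
  | m + 1, θ => BasePt K ℓ κf α θ ∧ ∀ μ < θ, ∃ τ, μ < τ ∧ τ < θ ∧ Rk m τ

theorem Rk.base {m : ℕ} {θ : Cardinal.{u}} (h : Rk K ℓ κf α m θ) : BasePt K ℓ κf α θ := by
  cases m with
  | zero => exact h
  | succ m => exact h.1

theorem Rk.pred {m : ℕ} {θ : Cardinal.{u}} (h : Rk K ℓ κf α (m + 1) θ) : Rk K ℓ κf α m θ := by
  induction m generalizing θ with
  | zero => exact h.1
  | succ m ih =>
    refine ⟨h.1, fun μ hμ => ?_⟩
    obtain ⟨τ, h1, h2, h3⟩ := h.2 μ hμ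
    exact ⟨τ, h1, h2, ih h3⟩

theorem Rk.mono {m n : ℕ} {θ : Cardinal.{u}} (hn : n ≤ m) (h : Rk K ℓ κf α m θ) :
    Rk K ℓ κf α n θ := by
  induction m, hn using Nat.le_induction with
  | base => exact h
  | succ m _ ih => exact ih h.pred

theorem Rk.exists_btw {m : ℕ} {θ : Cardinal.{u}} (h : Rk K ℓ κf α (m + 1) θ) {μ : Cardinal.{u}}
    (hμ : μ < θ) : ∃ τ, μ < τ ∧ τ < θ ∧ Rk K ℓ κf α m τ := h.2 μ hμ

variable (K ℓ κf α) in
/-- The base points which are closed under one function have all the ranks. -/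
theorem exists_rk : ∃ g : Cardinal.{u} → Cardinal.{u}, ∀ θ, BasePt K ℓ κf α θ →
    (∀ ρ < θ, g ρ < θ) → ∀ m, Rk K ℓ κf α m θ := by
  refine ⟨fun ρ => ⨆ m : ℕ, sInf {τ | ρ < τ ∧ Rk K ℓ κf α m τ}, fun θ h₀ hg m => ?_⟩
  induction m with
  | zero => exact h₀
  | succ m ih =>
    refine ⟨h₀, fun μ hμ => ?_⟩
    have h1 : ({τ | μ < τ ∧ Rk K ℓ κf α m τ} : Set Cardinal.{u}).Nonempty := ⟨θ, hμ, ih⟩
    obtain ⟨h2, h3⟩ := csInf_mem h1
    have h4 : sInf {τ | μ < τ ∧ Rk K ℓ κf α m τ} ≤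
        ⨆ m : ℕ, sInf {τ | μ < τ ∧ Rk K ℓ κf α m τ} :=
      le_ciSup (f := fun m : ℕ => sInf {τ | μ < τ ∧ Rk K ℓ κf α m τ})
        (Cardinal.bddAbove_of_small) m
    exact ⟨_, h2, h4.trans_lt (hg μ hμ), h3⟩

variable (K ℓ κf α) in
/-- Atomic tops over the one-step extensions of the independent systems of dimension at most
`k`, at the base point `θ`. -/
def Tops (k : ℕ) (θ : Cardinal.{u}) : Prop :=
  ∀ (h₀ : BasePt K ℓ κf α θ) (hK : K.IsLS ℓ) (hunb : ∀ ν, ν < κf ν ∧ K.CategoricalIn (κf ν))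
    (hst : Stab K ℓ α (H287.thr κf)) (C : Type u) [L.Structure C] (hCm : K.mem C)
    (hs : Sat K θ C) (hCc : #C = Order.succ θ) (ι : Type u) (j : ℕ), j ≤ k →
      Md (pg h₀ hK hunb hst hCm hs hCc) ι j

theorem Tops.mono {k k' : ℕ} {θ : Cardinal.{u}} (hk : k' ≤ k) (h : Tops K ℓ κf α k θ) :
    Tops K ℓ κf α k' θ := fun h₀ hK hunb hst C _ hCm hs hCc ι j hj =>
  h h₀ hK hunb hst C hCm hs hCc ι j (hj.trans hk)

end

/-- Dimension zero. -/
theorem md_zero {C ι : Type u} (M : PG C) : Md M ι 0 := by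
  intro A S c hS hE
  rw [Finset.card_eq_zero] at hS
  subst hS
  have h1 : ibd A (insert c ∅) = A ∅ := by
    ext x
    constructor
    · rintro ⟨r, hr, hx⟩
      have h2 : r = ∅ := by
        rw [insert_empty_eq] at hr
        exact Finset.ssubset_singleton_iff.1 hr
      rwa [h2] at hx
    · intro hx
      exact ⟨∅, Finset.empty_ssubset.2 (Finset.insert_nonempty c ∅), hx⟩
  refine ⟨A ∅, hE.sys.mem (Finset.empty_subset _), h1.subset, fun E hE' hEc => ?_⟩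
  rw [h1]
  exact ⟨E, hE', hEc, Isol.self Subset.rfl⟩

section

variable {L : Language.{u, u}} {K : AEC L} {ℓ : Cardinal.{u}}
  {κf α : Cardinal.{u} → Cardinal.{u}}

theorem tops_zero (θ : Cardinal.{u}) : Tops K ℓ κf α 0 θ := by
  intro h₀ hK hunb hst C _ hCm hs hCc ι j hj
  rw [Nat.le_zero.1 hj]
  exact md_zero _

variable (K ℓ κf α) in
/-- One step of the induction on the dimension. -/
def Step : Prop := ∀ k : ℕ, ∃ s : ℕ, ∀ (m : ℕ) (θ : Cardinal.{u}), Rk K ℓ κf α (m + s) θ →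
  (∀ τ ≤ θ, Rk K ℓ κf α m τ → Tops K ℓ κf α k τ) → Tops K ℓ κf α (k + 1) θ

/-- The induction on the dimension. -/
theorem Step.exists_rank (h : Step K ℓ κf α) (k : ℕ) :
    ∃ r : ℕ, ∀ θ, Rk K ℓ κf α r θ → Tops K ℓ κf α k θ := by
  induction k with
  | zero => exact ⟨0, fun θ _ => tops_zero θ⟩
  | succ k ih =>
    obtain ⟨r, hr⟩ := ih
    obtain ⟨s, hs⟩ := h k
    exact ⟨r + s, fun θ hθ => hs r θ hθ fun τ _ hτ => hr τ hτ⟩

/-- Atomic models over the boundaries of the prime systems. -/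
theorem Frame.di (hF : Frame K ℓ κf α) (h : Step K ℓ κf α) {θ : Cardinal.{u}}
    (hθ : ∀ m, Rk K ℓ κf α m θ) (h₀ : BasePt K ℓ κf α θ) (hK : K.IsLS ℓ)
    (hunb : ∀ ν, ν < κf ν ∧ K.CategoricalIn (κf ν)) (hst : Stab K ℓ α (H287.thr κf))
    {C : Type u} [L.Structure C] (hCm : K.mem C) (hs : Sat K θ C) (hCc : #C = Order.succ θ) :
    (pg h₀ hK hunb hst hCm hs hCc).DI := by
  obtain ⟨Λ, hθΛ, hΛ⟩ := hF.exists_gt θ
  refine di_of_pt (pg_calc h₀ hK hunb hst hCm hs hCc) ?_ fun k _ => ?_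
  · rintro P ⟨D, hD, hDc, rfl⟩ x
    obtain ⟨N, hN⟩ := pg_di1 h₀ hK hunb hst hCm hs hCc hΛ hθΛ hD hDc (fun _ : PUnit.{u + 1} => x)
    refine ⟨N, ?_⟩
    rwa [range_const] at hN
  · obtain ⟨r, hr⟩ := h.exists_rank k
    exact (hr θ (hθ r) h₀ hK hunb hst C hCm hs hCc C k le_rfl).pt

end

/-- **The good geometry** from the two inputs, with base points above every cardinal. -/
theorem hasGeo_of_inputs' {L : Language.{u, u}} {K : AEC L}
    (hcat : ∀ ν : Cardinal.{u}, ∃ κ, ν < κ ∧ K.CategoricalIn κ)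
    (H : ∀ (ℓ : Cardinal.{u}) (κf α : Cardinal.{u} → Cardinal.{u}), Frame K ℓ κf α →
      ∃ g : Cardinal.{u} → Cardinal.{u}, ∀ θ, ℓ < θ → θ.ord.cof = ℵ₀ →
        (∀ ρ < θ, gB κf α ρ < θ) → (∀ ρ < θ, g ρ < θ) → Inputs K ℓ κf α θ) : HasGeo K := by
  choose κf hκf using hcat
  have hK : K.IsLS K.LS := AEC.isLS_of_LS_le le_rfl
  obtain ⟨α, hst, hbase⟩ := H1.exists_base hK hκf
  obtain ⟨g, hg⟩ := H K.LS κf α ⟨hK, hκf, hst, hbase⟩
  obtain ⟨θ, hθ, hθg, hcof⟩ := H301.exists_closure_cof (fun ρ => max (gB κf α ρ) (g ρ)) K.LS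
  have h1 : ∀ ρ < θ, gB κf α ρ < θ := fun ρ hρ => (le_max_left _ _).trans_lt (hθg ρ hρ)
  have h2 : ∀ ρ < θ, g ρ < θ := fun ρ hρ => (le_max_right _ _).trans_lt (hθg ρ hρ)
  have h₀ := hbase θ hθ hcof h1
  obtain ⟨C, _, hCm, hCc, hs⟩ := h₀.exists_saturated hK hκf
  obtain ⟨hDI, p, Q, hQ⟩ := hg θ hθ hcof h1 h2 h₀ hK hκf hst C hCm hs hCc
  exact hasGeo_of_mini h₀ hK hκf hst hCm hs hCc hDI hQ

/-- The inputs from one step of the induction. -/
theorem Frame.inputs {L : Language.{u, u}} {K : AEC L} {ℓ : Cardinal.{u}}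
    {κf α : Cardinal.{u} → Cardinal.{u}} (hF : Frame K ℓ κf α) (h : Step K ℓ κf α) :
    ∃ g : Cardinal.{u} → Cardinal.{u}, ∀ θ, ℓ < θ → θ.ord.cof = ℵ₀ →
      (∀ ρ < θ, gB κf α ρ < θ) → (∀ ρ < θ, g ρ < θ) → Inputs K ℓ κf α θ := by
  obtain ⟨g₁, h1⟩ := exists_rk K ℓ κf α
  obtain ⟨g₂, h2⟩ := H578.exists_mini (K := K) (ℓ := ℓ) (κf := κf) (α := α)
  refine ⟨fun ρ => max (g₁ ρ) (g₂ ρ), fun θ hθ hcof hgB hg h₀ hK hunb hst C _ hCm hs hCc => ?_⟩
  exact ⟨hF.di h (h1 θ h₀ fun ρ hρ => (le_max_left _ _).trans_lt (hg ρ hρ)) h₀ hK hunb hst hCm hs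
    hCc, h2 θ hθ (fun ρ hρ => (le_max_right _ _).trans_lt (hg ρ hρ)) h₀ hK hunb hst C hCm hs hCc⟩

/-- **The question** from one step of the induction on the dimension. -/
theorem q1_of_step (H : ∀ (L : Language.{u, u}) (K : AEC L) (ℓ : Cardinal.{u})
      (κf α : Cardinal.{u} → Cardinal.{u}), Frame K ℓ κf α → Step K ℓ κf α)
    (l : Cardinal.{u}) :
    ∃ μ : Cardinal.{u}, l ≤ μ ∧ ∀ (L : Language.{u, u}) (K : AEC L), K.LS ≤ l →
      ∀ κ, μ ≤ κ → K.CategoricalIn κ → ∀ κ', μ ≤ κ' → K.CategoricalIn κ' :=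
  H427.q1_of_geo (fun L K hcat => hasGeo_of_inputs' hcat fun ℓ κf α hF =>
    hF.inputs (H L K ℓ κf α hF)) l

end Vale.Agent.P307.R2.H718
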