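import Vale.Agent.P307.R2.H718.GeoC
import Vale.Agent.P307.R2.H624.Filt

/-!
The question, from the existence of atomic models over the boundaries of independent systems and of
a minimal type, in the saturated member of size `θ⁺` for suitable `θ`.
-/

universe u

open FirstOrder Cardinal Set Function Language

namespace Vale.Agent.P307.R2.H718

open R2.H427 (HasGeo)
open Vale.Agent.P307 Vale.Agent.P307.H304 R2.H541 R2.H541.PG R2.H287 R2.H1 R2.H971

/-- The two inputs: atomic models over the boundaries of independent systems, and a minimal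
type. -/
def Inputs {L : Language.{u, u}} (K : AEC L) (ℓ : Cardinal.{u})
    (κf α : Cardinal.{u} → Cardinal.{u}) (θ : Cardinal.{u}) : Prop :=
  ∀ (h₀ : BasePt K ℓ κf α θ) (hK : K.IsLS ℓ) (hunb : ∀ ν, ν < κf ν ∧ K.CategoricalIn (κf ν))
    (hst : Stab K ℓ α (H287.thr κf)) (C : Type u) [L.Structure C] (hCm : K.mem C)
    (hs : Sat K θ C) (hCc : #C = Order.succ θ), (pg h₀ hK hunb hst hCm hs hCc).DI ∧
      ∃ p Q, Mini (pg h₀ hK hunb hst hCm hs hCc) p Q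

/-- **The good geometry** of a class which is categorical in unboundedly many cardinals. -/
theorem hasGeo_of_inputs {L : Language.{u, u}} {K : AEC L}
    (hcat : ∀ ν : Cardinal.{u}, ∃ κ, ν < κ ∧ K.CategoricalIn κ)
    (H : ∀ (ℓ : Cardinal.{u}) (κf α : Cardinal.{u} → Cardinal.{u}), K.IsLS ℓ →
      (∀ ν, ν < κf ν ∧ K.CategoricalIn (κf ν)) → Stab K ℓ α (H287.thr κf) →
        ∃ g : Cardinal.{u} → Cardinal.{u}, ∀ θ, ℓ < θ → θ.ord.cof = ℵ₀ →
          (∀ ρ < θ, gB κf α ρ < θ) → (∀ ρ < θ, g ρ < θ) → Inputs K ℓ κf α θ) : HasGeo K := by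
  choose κf hκf using hcat
  have hK : K.IsLS K.LS := AEC.isLS_of_LS_le le_rfl
  obtain ⟨α, hst, hbase⟩ := exists_base hK hκf
  obtain ⟨g, hg⟩ := H K.LS κf α hK hκf hst
  obtain ⟨θ, hθ, hθg, hcof⟩ := H301.exists_closure_cof (fun ρ => max (gB κf α ρ) (g ρ)) K.LS
  have h1 : ∀ ρ < θ, gB κf α ρ < θ := fun ρ hρ => (le_max_left _ _).trans_lt (hθg ρ hρ)
  have h2 : ∀ ρ < θ, g ρ < θ := fun ρ hρ => (le_max_right _ _).trans_lt (hθg ρ hρ)
  have h₀ := hbase θ hθ hcof h1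
  obtain ⟨C, _, hCm, hCc, hs⟩ := h₀.exists_saturated hK hκf
  obtain ⟨hDI, p, Q, hQ⟩ := hg θ hθ hcof h1 h2 h₀ hK hκf hst C hCm hs hCc
  exact hasGeo_of_mini h₀ hK hκf hst hCm hs hCc hDI hQ

/-- **The question** from the two inputs. -/
theorem q1_of_inputs (H : ∀ (L : Language.{u, u}) (K : AEC L) (ℓ : Cardinal.{u})
      (κf α : Cardinal.{u} → Cardinal.{u}), K.IsLS ℓ →
      (∀ ν, ν < κf ν ∧ K.CategoricalIn (κf ν)) → Stab K ℓ α (H287.thr κf) →
        ∃ g : Cardinal.{u} → Cardinal.{u}, ∀ θ, ℓ < θ → θ.ord.cof = ℵ₀ →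
          (∀ ρ < θ, gB κf α ρ < θ) → (∀ ρ < θ, g ρ < θ) → Inputs K ℓ κf α θ)
    (l : Cardinal.{u}) :
    ∃ μ : Cardinal.{u}, l ≤ μ ∧ ∀ (L : Language.{u, u}) (K : AEC L), K.LS ≤ l →
      ∀ κ, μ ≤ κ → K.CategoricalIn κ → ∀ κ', μ ≤ κ' → K.CategoricalIn κ' :=
  H427.q1_of_geo (fun L K hcat => hasGeo_of_inputs hcat (H L K)) l

end Vale.Agent.P307.R2.H718
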