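import Vale.Agent.P307.R2.H427.Frame1

/-!
Systems of strong substructures indexed by finite sets: coherent systems of isomorphisms, for every
index set.
-/

universe u

open FirstOrder Cardinal Set Function Language

namespace Vale.Agent.P307.R2.H718

open R2.H427 (IsoOn exists_finset_rec)
open scoped Classical

variable {L : Language.{u, u}} {M : Type u} [L.Structure M]

/-! ### Isomorphisms given by functions -/

theorem isoOn_congr {f g : M → M} {S T : L.Substructure M} (h : IsoOn f S T)
    (hfg : ∀ a, a ∈ S → g a = f a) : IsoOn g S T := by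
  obtain ⟨φ, hφ⟩ := h
  exact ⟨φ, fun a => (hφ a).trans (hfg a a.2).symm⟩

theorem isoOn_id (S : L.Substructure M) : IsoOn id S S := ⟨Language.Equiv.refl L S, fun _ => rfl⟩

theorem isoOn_comp {f g : M → M} {S T U : L.Substructure M} (hf : IsoOn f S T)
    (hg : IsoOn g T U) : IsoOn (g ∘ f) S U := by
  obtain ⟨φ, hφ⟩ := hf
  obtain ⟨ψ, hψ⟩ := hg
  refine ⟨ψ.comp φ, fun a => ?_⟩
  change ((ψ (φ a) : U) : M) = g (f a)
  rw [hψ, hφ]

theorem isoOn_mem {f : M → M} {S T : L.Substructure M} (hf : IsoOn f S T) {a : M} (ha : a ∈ S) :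
    f a ∈ T := by
  obtain ⟨φ, hφ⟩ := hf
  rw [← hφ ⟨a, ha⟩]
  exact (φ ⟨a, ha⟩).2

theorem isoOn_injOn {f : M → M} {S T : L.Substructure M} (hf : IsoOn f S T) :
    InjOn f (S : Set M) := by
  obtain ⟨φ, hφ⟩ := hf
  intro a ha b hb hab
  have h1 := (hφ ⟨a, ha⟩).trans (hab.trans (hφ ⟨b, hb⟩).symm)
  exact congrArg Subtype.val (φ.injective (Subtype.ext h1))

theorem isoOn_surj {f : M → M} {S T : L.Substructure M} (hf : IsoOn f S T) {b : M} (hb : b ∈ T) :
    ∃ a, a ∈ S ∧ f a = b := by
  obtain ⟨φ, hφ⟩ := hf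
  refine ⟨φ.symm ⟨b, hb⟩, (φ.symm ⟨b, hb⟩).2, ?_⟩
  rw [← hφ, φ.apply_symm_apply]

/-- If `f` is an isomorphism of `S` onto `T` and `g ∘ f` is one of `S` onto `U`, then `g` is one of
`T` onto `U`. -/
theorem isoOn_of_comp {f g h : M → M} {S T U : L.Substructure M} (hf : IsoOn f S T)
    (hh : IsoOn h S U) (hgf : ∀ a, a ∈ S → g (f a) = h a) : IsoOn g T U := by
  obtain ⟨φ, hφ⟩ := hf
  obtain ⟨ψ, hψ⟩ := hh
  refine ⟨ψ.comp φ.symm, fun b => ?_⟩
  change ((ψ (φ.symm b) : U) : M) = g b
  rw [hψ]
  have h1 := hφ (φ.symm b)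
  rw [φ.apply_symm_apply] at h1
  rw [h1]
  exact (hgf _ (φ.symm b).2).symm

/-! ### Systems -/

/-- Systems over `P`: `PS A s` says, for a finite set `s` of elements of `M` and a function `A` on
the finite subsets of `M`, that `A t`, for `t ⊆ s`, is a system of substructures of size at most
`l`, free over `P`, which is determined up to isomorphism by the number of elements of `s`. -/
structure QSys (K : AEC L) (l : Cardinal.{u}) (P : L.Substructure M) where
  PS : (Finset M → L.Substructure M) → Finset M → Prop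
  congr : ∀ {A B : Finset M → L.Substructure M} {s : Finset M}, (∀ t, t ⊆ s → A t = B t) →
    PS A s → PS B s
  mono : ∀ {A : Finset M → L.Substructure M} {s t : Finset M}, PS A s → t ⊆ s → PS A t
  empty : ∀ {A : Finset M → L.Substructure M}, A ∅ = P → PS A ∅
  bot : ∀ {A : Finset M → L.Substructure M} {s : Finset M}, PS A s → A ∅ = P
  le : ∀ {A : Finset M → L.Substructure M} {s : Finset M}, PS A s → K.le (A s)
  card : ∀ {A : Finset M → L.Substructure M} {s : Finset M}, PS A s → #(A s) ≤ l
  mem : ∀ {A : Finset M → L.Substructure M} {s : Finset M}, PS A s → ∀ x, x ∈ s → x ∈ A s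
  /-- independence -/
  int : ∀ {A : Finset M → L.Substructure M} {s : Finset M}, PS A s → ∀ t, t ⊆ s → ∀ t', t' ⊆ s →
    A t ⊓ A t' = A (t ∩ t')
  /-- existence -/
  step : ∀ {A : Finset M → L.Substructure M} {s : Finset M}, PS A s → ∃ y, y ∉ s ∧
    ∃ A' : Finset M → L.Substructure M, (∀ t, t ⊆ s → A' t = A t) ∧ PS A' (insert y s)
  /-- uniqueness -/
  iso : ∀ {A A' : Finset M → L.Substructure M} {s s' : Finset M}, PS A s → PS A' s' →
    ∀ e : M → M, InjOn e s → s.image e = s' → ∀ f : M → M,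
    (∀ t, t ⊂ s → IsoOn f (A t) (A' (t.image e))) → (∀ t, t ⊂ s → ∀ x, x ∈ t → f x = e x) →
    (∀ a, a ∈ P → f a = a) →
    ∃ g : M → M, (∀ t, t ⊂ s → ∀ a, a ∈ A t → g a = f a) ∧ IsoOn g (A s) (A' s') ∧
      ∀ x, x ∈ s → g x = e x

namespace QSys

variable {K : AEC L} {l : Cardinal.{u}} {P : L.Substructure M} (C : QSys K l P)

include C

theorem sub {A : Finset M → L.Substructure M} {s t : Finset M} (h : C.PS A s) (ht : t ⊆ s) :
    A t ≤ A s := by
  have h1 := C.int h t ht s (Finset.Subset.refl s)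
  rw [Finset.inter_eq_left.2 ht] at h1
  rw [← h1]
  exact inf_le_right

theorem P_le {A : Finset M → L.Substructure M} {s : Finset M} (h : C.PS A s) : P ≤ A s := by
  rw [← C.bot h]
  exact C.sub h (Finset.empty_subset s)

/-- There are systems of all finite sizes. -/
theorem exists_PS {X : Type u} (u : Finset X) : ∃ (A : Finset M → L.Substructure M) (e : X → M),
    InjOn e u ∧ C.PS A (u.image e) := by
  induction u using Finset.induction_on with
  | empty =>
    have hP := C.empty (A := fun _ => P) rfl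
    have hne : Nonempty M := by
      obtain ⟨y, -⟩ := C.step hP
      exact ⟨y⟩
    exact ⟨fun _ => P, fun _ => Classical.arbitrary M, by simp, by simpa using hP⟩
  | insert x u hx ih =>
    obtain ⟨A, e, he, hA⟩ := ih
    obtain ⟨y, hy, A', hA', hPS⟩ := C.step hA
    have h1 : u.image (update e x y) = u.image e := by
      refine Finset.image_congr fun z hz => ?_
      exact update_of_ne (by rintro rfl; exact hx hz) _ _
    refine ⟨A', update e x y, ?_, ?_⟩
    · rw [Finset.coe_insert, injOn_insert (by exact_mod_cast hx)]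
      refine ⟨fun a ha b hb hab => ?_, ?_⟩
      · rw [update_of_ne (by rintro rfl; exact hx ha), update_of_ne (by rintro rfl; exact hx hb)]
          at hab
        exact he ha hb hab
      · rw [update_self]
        have h2 : ((update e x y) '' (u : Set X)) = (u.image e : Set M) := by
          rw [← Finset.coe_image, h1]
        rw [h2]
        exact_mod_cast hy
    · rw [Finset.image_insert, update_self, h1]
      exact hPS

end QSys

/-- The data of a coherent family of systems: for each finite set `u` a system `(D u).1`, the marks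
`(D u).2.1` of the elements of `u` in it, and the maps `(D u).2.2 t`, for `t ⊆ u`, from the top of
the system of `t`. -/
abbrev Dat (L : Language.{u, u}) (M : Type u) [L.Structure M] (X : Type u) : Type u :=
  (Finset M → L.Substructure M) × (X → M) × (Finset X → M → M)

namespace QSys

variable {K : AEC L} {l : Cardinal.{u}} {P : L.Substructure M} (C : QSys K l P) {X : Type u}

/-- The top of the system of `u`. -/
noncomputable def top (D : Finset X → Dat L M X) (u : Finset X) : L.Substructure M :=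
  (D u).1 (u.image (D u).2.1)

/-- The data `D` are coherent up to `u`. -/
structure Coh (D : Finset X → Dat L M X) (u : Finset X) : Prop where
  inj : InjOn (D u).2.1 (u : Set X)
  ps : C.PS (D u).1 (u.image (D u).2.1)
  iso : ∀ t, t ⊆ u → IsoOn ((D u).2.2 t) (top D t) ((D u).1 (t.image (D u).2.1))
  mark : ∀ t, t ⊆ u → ∀ x, x ∈ t → (D u).2.2 t ((D t).2.1 x) = (D u).2.1 x
  comp : ∀ t, t ⊆ u → ∀ r, r ⊆ t → ∀ a, a ∈ top D r →
    (D u).2.2 t ((D t).2.2 r a) = (D u).2.2 r a
  self : ∀ a, (D u).2.2 u a = a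
  fix : ∀ t, t ⊆ u → ∀ a, a ∈ P → (D u).2.2 t a = a

theorem Coh.congr {D D' : Finset X → Dat L M X} {u : Finset X} (h : ∀ t, t ⊆ u → D t = D' t)
    (hD : C.Coh D u) : C.Coh D' u := by
  have hu := h u (Finset.Subset.refl u)
  have ht : ∀ t, t ⊆ u → top D' t = top D t := fun t ht => by
    unfold top
    rw [h t ht]
  obtain ⟨h1, h2, h3, h4, h5, h6, h7⟩ := hD
  rw [hu] at h1 h2 h6
  refine ⟨h1, h2, fun t htu => ?_, fun t htu => ?_, fun t htu r hr a ha => ?_, h6,
    fun t htu => ?_⟩
  · rw [ht t htu, ← hu]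
    exact h3 t htu
  · rw [← hu, ← h t htu]
    exact h4 t htu
  · rw [← hu, ← h t htu]
    exact h5 t htu r hr a (by rwa [← ht r (hr.trans htu)])
  · rw [← hu]
    exact h7 t htu

theorem image_inter {e : X → M} {t r r' : Finset X} (he : InjOn e (t : Set X)) (hr : r ⊆ t)
    (hr' : r' ⊆ t) : r.image e ∩ r'.image e = (r ∩ r').image e := by
  ext y
  simp only [Finset.mem_inter, Finset.mem_image]
  constructor
  · rintro ⟨⟨a, ha, rfl⟩, b, hb, hab⟩
    have : b = a := he (hr' hb) (hr ha) hab
    subst this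
    exact ⟨b, ⟨ha, hb⟩, rfl⟩
  · rintro ⟨a, ⟨h1, h2⟩, rfl⟩
    exact ⟨⟨a, h1, rfl⟩, a, h2, rfl⟩

/-- Every proper subset of the image of `t` is the image of a proper subset of `t`. -/
theorem exists_ssubset_image {e : X → M} {t : Finset X} {s : Finset M} (hs : s ⊂ t.image e) :
    ∃ r, r ⊂ t ∧ r.image e = s := by
  obtain ⟨r, hr, hrs⟩ := Finset.subset_image_iff.1 hs.1
  refine ⟨r, lt_of_le_of_ne (by exact_mod_cast hr) ?_, hrs⟩
  rintro rfl
  exact hs.2 (by rw [hrs])

include C in
/-- Maps of a coherent family into a system. -/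
theorem exists_maps {D : Finset X → Dat L M X} {u : Finset X} (hD : ∀ t, t ⊂ u → C.Coh D t)
    {A : Finset M → L.Substructure M} {e : X → M} (he : InjOn e (u : Set X))
    (hA : C.PS A (u.image e)) : ∃ H : Finset X → M → M, ∀ t, t ⊂ u →
      IsoOn (H t) (top D t) (A (t.image e)) ∧ (∀ x, x ∈ t → H t ((D t).2.1 x) = e x) ∧
        (∀ r, r ⊆ t → ∀ a, a ∈ top D r → H t ((D t).2.2 r a) = H r a) ∧
          ∀ a, a ∈ P → H t a = a := by
  have hne : Nonempty (M → M) := ⟨id⟩
  refine exists_finset_rec (α := X) (β := M → M) (fun H t => t ⊂ u →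
      IsoOn (H t) (top D t) (A (t.image e)) ∧ (∀ x, x ∈ t → H t ((D t).2.1 x) = e x) ∧
        (∀ r, r ⊆ t → ∀ a, a ∈ top D r → H t ((D t).2.2 r a) = H r a) ∧
          ∀ a, a ∈ P → H t a = a) ?_ ?_
  · intro H H' t hH h htu
    obtain ⟨h1, h2, h3, h4⟩ := h htu
    rw [hH t (Finset.Subset.refl t)] at h1 h2 h4
    refine ⟨h1, h2, fun r hr a ha => ?_, h4⟩
    rw [← hH t (Finset.Subset.refl t), ← hH r hr]
    exact h3 r hr a ha
  intro H t hH
  by_cases htu : t ⊂ u
  swap
  · exact ⟨id, fun h => absurd h htu⟩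
  have hDt := hD t htu
  have hAt : C.PS A (t.image e) := C.mono hA (Finset.image_subset_image htu.1)
  rcases t.eq_empty_or_nonempty with rfl | ht0
  · refine ⟨id, fun _ => ?_⟩
    have h1 : top D ∅ = P := by
      have h2 := C.bot hDt.ps
      unfold top
      rwa [Finset.image_empty]
    rw [update_self, Finset.image_empty, h1, C.bot hA]
    refine ⟨isoOn_id P, fun x hx => absurd hx (Finset.notMem_empty x), fun r hr a ha => ?_,
      fun a _ => rfl⟩
    rw [Finset.subset_empty.1 hr, update_self, hDt.self]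
  -- the data on the proper subsets of `t`
  have hHr : ∀ r, r ⊂ t → IsoOn (H r) (top D r) (A (r.image e)) ∧
      (∀ x, x ∈ r → H r ((D r).2.1 x) = e x) ∧
        (∀ q, q ⊆ r → ∀ a, a ∈ top D q → H r ((D r).2.2 q a) = H q a) ∧
          ∀ a, a ∈ P → H r a = a := fun r hr => hH r hr (hr.trans htu)
  have hDr : ∀ r, r ⊂ t → C.Coh D r := fun r hr => hD r (hr.trans htu)
  -- the function on the boundary
  let f : M → M := fun b =>
    if h : ∃ p : Finset X × M, p.1 ⊂ t ∧ p.2 ∈ top D p.1 ∧ (D t).2.2 p.1 p.2 = b then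
      H h.choose.1 h.choose.2 else b
  have hf : ∀ r, r ⊂ t → ∀ a, a ∈ top D r → f ((D t).2.2 r a) = H r a := by
    intro r hr a ha
    have h : ∃ p : Finset X × M, p.1 ⊂ t ∧ p.2 ∈ top D p.1 ∧ (D t).2.2 p.1 p.2 =
      (D t).2.2 r a := ⟨(r, a), hr, ha, rfl⟩
    have h1 : f ((D t).2.2 r a) = H h.choose.1 h.choose.2 := dif_pos h
    obtain ⟨h2, h3, h4⟩ := h.choose_spec
    rw [h1]
    generalize h.choose = p at h2 h3 h4 ⊢
    obtain ⟨r', a'⟩ := p
    change r' ⊂ t at h2
    change a' ∈ top D r' at h3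
    change (D t).2.2 r' a' = (D t).2.2 r a at h4
    change H r' a' = H r a
    -- the common part
    have h5 : (D t).2.2 r a ∈ (D t).1 ((r ∩ r').image (D t).2.1) := by
      rw [← image_inter hDt.inj hr.1 h2.1, ← C.int hDt.ps _ (Finset.image_subset_image hr.1) _
        (Finset.image_subset_image h2.1)]
      refine ⟨isoOn_mem (hDt.iso r hr.1) ha, ?_⟩
      rw [← h4]
      exact isoOn_mem (hDt.iso r' h2.1) h3
    obtain ⟨c, hc, hc2⟩ := isoOn_surj (hDt.iso (r ∩ r') (Finset.inter_subset_left.trans hr.1)) h5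
    have h6 : (D r).2.2 (r ∩ r') c = a := by
      refine isoOn_injOn (hDt.iso r hr.1) ?_ ha ?_
      · refine C.sub (hDr r hr).ps (t := (r ∩ r').image (D r).2.1)
          (Finset.image_subset_image Finset.inter_subset_left) ?_
        exact isoOn_mem ((hDr r hr).iso _ Finset.inter_subset_left) hc
      · rw [hDt.comp r hr.1 _ Finset.inter_subset_left c hc, hc2]
    have h7 : (D r').2.2 (r ∩ r') c = a' := by
      refine isoOn_injOn (hDt.iso r' h2.1) ?_ h3 ?_
      · refine C.sub (hDr r' h2).ps (t := (r ∩ r').image (D r').2.1)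
          (Finset.image_subset_image Finset.inter_subset_right) ?_
        exact isoOn_mem ((hDr r' h2).iso _ Finset.inter_subset_right) hc
      · rw [hDt.comp r' h2.1 _ Finset.inter_subset_right c hc, hc2, h4]
    rw [← h6, ← h7, (hHr r hr).2.2.1 _ Finset.inter_subset_left c hc,
      (hHr r' h2).2.2.1 _ Finset.inter_subset_right c hc]
  -- the marks
  let ε : M → M := fun y => if h : ∃ x, x ∈ t ∧ (D t).2.1 x = y then e h.choose else y
  have hε : ∀ x, x ∈ t → ε ((D t).2.1 x) = e x := by
    intro x hx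
    have h : ∃ z, z ∈ t ∧ (D t).2.1 z = (D t).2.1 x := ⟨x, hx, rfl⟩
    have h1 : ε ((D t).2.1 x) = e h.choose := dif_pos h
    rw [h1, hDt.inj h.choose_spec.1 hx h.choose_spec.2]
  have hεi : ∀ r, r ⊆ t → (r.image (D t).2.1).image ε = r.image e := by
    intro r hr
    rw [Finset.image_image]
    exact Finset.image_congr fun x hx => hε x (hr hx)
  obtain ⟨g, hg1, hg2, hg3⟩ := C.iso hDt.ps hAt ε (by
      intro a ha b hb hab
      rw [Finset.mem_coe] at ha hb
      obtain ⟨x, hx, rfl⟩ := Finset.mem_image.1 ha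
      obtain ⟨y, hy, rfl⟩ := Finset.mem_image.1 hb
      rw [hε x hx, hε y hy] at hab
      rw [he (htu.1 hx) (htu.1 hy) hab]) (hεi t (Finset.Subset.refl t)) f
    (fun s hs => by
      obtain ⟨r, hr, rfl⟩ := exists_ssubset_image hs
      rw [hεi r hr.1]
      exact isoOn_of_comp (hDt.iso r hr.1) (hHr r hr).1 (hf r hr))
    (fun s hs y hy => by
      obtain ⟨r, hr, rfl⟩ := exists_ssubset_image hs
      obtain ⟨x, hx, rfl⟩ := Finset.mem_image.1 hy
      rw [hε x (hr.1 hx), ← hDt.mark r hr.1 x hx, hf r hr _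
        (C.mem (hDr r hr).ps _ (Finset.mem_image_of_mem _ hx)), (hHr r hr).2.1 x hx])
    (fun a ha => by
      have h1 : (D t).2.2 ∅ a = a := hDt.fix ∅ (Finset.empty_subset t) a ha
      have h2 : a ∈ top D ∅ := by
        have h3 := C.bot (hDr ∅ (Finset.empty_ssubset.2 ht0)).ps
        unfold top
        rw [Finset.image_empty, h3]
        exact ha
      have h4 := hf ∅ (Finset.empty_ssubset.2 ht0) a h2
      rw [h1] at h4
      rw [h4]
      exact (hHr ∅ (Finset.empty_ssubset.2 ht0)).2.2.2 a ha)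
  refine ⟨g, fun _ => ?_⟩
  rw [update_self]
  have hgr : ∀ r, r ⊂ t → ∀ a, a ∈ top D r → g ((D t).2.2 r a) = H r a := by
    intro r hr a ha
    rw [← hf r hr a ha]
    refine hg1 (r.image (D t).2.1) ?_ _ (isoOn_mem (hDt.iso r hr.1) ha)
    refine lt_of_le_of_ne (Finset.image_subset_image hr.1) fun h => ?_
    refine hr.2 fun x hx => ?_
    have h2 : (D t).2.1 x ∈ r.image (D t).2.1 := by
      rw [h]
      exact Finset.mem_image_of_mem _ hx
    obtain ⟨z, hz, hzx⟩ := Finset.mem_image.1 h2
    rw [← hDt.inj (hr.1 hz) hx hzx]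
    exact hz
  refine ⟨hg2, fun x hx => ?_, fun r hr a ha => ?_, fun a ha => ?_⟩
  · rw [hg3 _ (Finset.mem_image_of_mem _ hx), hε x hx]
  · rcases eq_or_ne r t with rfl | hrt
    · rw [update_self, hDt.self]
    · rw [update_of_ne hrt]
      exact hgr r (lt_of_le_of_ne hr hrt) a ha
  · have h1 : (D t).2.2 ∅ a = a := hDt.fix ∅ (Finset.empty_subset t) a ha
    have h2 : a ∈ top D ∅ := by
      have h3 := C.bot (hDr ∅ (Finset.empty_ssubset.2 ht0)).ps
      unfold top
      rw [Finset.image_empty, h3]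
      exact ha
    have h4 := hgr ∅ (Finset.empty_ssubset.2 ht0) a h2
    rw [h1] at h4
    rw [h4]
    exact (hHr ∅ (Finset.empty_ssubset.2 ht0)).2.2.2 a ha

/-- There is a coherent family of systems on all finite subsets of `X`. -/
theorem exists_coh (X : Type u) : ∃ D : Finset X → Dat L M X, ∀ u, C.Coh D u := by
  have hne : Nonempty (Dat L M X) := by
    obtain ⟨A, e, -⟩ := C.exists_PS (∅ : Finset X)
    exact ⟨A, e, fun _ => id⟩
  refine exists_finset_rec (α := X) (β := Dat L M X) (fun D u => C.Coh D u)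
    (fun D D' u h hD => Coh.congr C h hD) fun D u hD => ?_
  obtain ⟨A, e, he, hA⟩ := C.exists_PS u
  obtain ⟨H, hH⟩ := C.exists_maps hD he hA
  let D' : Finset X → Dat L M X := update D u (A, e, update H u id)
  have hu : D' u = (A, e, update H u id) := update_self _ _ _
  have hD' : ∀ t, t ⊂ u → D' t = D t := fun t ht => update_of_ne ht.ne _ _
  have htop : ∀ t, t ⊂ u → top D' t = top D t := fun t ht => by
    unfold top
    rw [hD' t ht]
  have htopu : top D' u = A (u.image e) := by
    unfold top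
    rw [hu]
  refine ⟨(A, e, update H u id), ?_⟩
  change C.Coh D' u
  have hsub : ∀ t, t ⊆ u → t = u ∨ t ⊂ u := fun t ht => by
    rcases eq_or_ne t u with h | h
    · exact Or.inl h
    · exact Or.inr (lt_of_le_of_ne ht h)
  refine ⟨?_, ?_, fun t ht => ?_, fun t ht x hx => ?_, fun t ht r hr a ha => ?_, fun a => ?_,
    fun t ht a ha => ?_⟩
  · rw [hu]
    exact he
  · rw [hu]
    exact hA
  · rw [hu]
    change IsoOn (update H u id t) (top D' t) (A (t.image e))
    rcases hsub t ht with rfl | ht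
    · rw [update_self, htopu]
      exact isoOn_id _
    · rw [update_of_ne ht.ne, htop t ht]
      exact (hH t ht).1
  · rw [hu]
    change update H u id t ((D' t).2.1 x) = e x
    rcases hsub t ht with rfl | ht
    · rw [update_self, hu]
      rfl
    · rw [update_of_ne ht.ne, hD' t ht]
      exact (hH t ht).2.1 x hx
  · rw [hu]
    change update H u id t ((D' t).2.2 r a) = update H u id r a
    rcases hsub t ht with rfl | ht
    · rw [update_self, hu]
      rfl
    · have hru : r ⊂ u := lt_of_le_of_lt hr ht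
      rw [update_of_ne ht.ne, update_of_ne hru.ne, hD' t ht]
      exact (hH t ht).2.2.1 r hr a (by rwa [htop r hru] at ha)
  · rw [hu]
    change update H u id u a = a
    rw [update_self]
    rfl
  · rw [hu]
    change update H u id t a = a
    rcases hsub t ht with rfl | ht
    · rw [update_self]
      rfl
    · rw [update_of_ne ht.ne]
      exact (hH t ht).2.2.2 a ha

end QSys

end Vale.Agent.P307.R2.H718
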