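import Vale.Agent.P307.R2.H541.Ext

/-!
Minimal types over strong models, in a permutation geometry: independence of the realizations,
images of prime systems, closure and exchange.
-/

universe u

open Set Cardinal Function

namespace Vale.Agent.P307.R2.H718

open R2.H541 R2.H541.PG
open scoped Classical

variable {C : Type u} {M : PG C}

/-! ### Images -/

theorem isol_map {B X E : Set C} (h : M.Isol B X E)
    {g : Equiv.Perm C} (hg : g ∈ M.G) : M.Isol (g '' B) (g '' X) (g '' E) := by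
  intro k hk hkB A hA hAc
  obtain ⟨l, hl, h1, h2⟩ := h (g⁻¹ * k * g) (M.G.mul_mem (M.G.mul_mem (M.G.inv_mem hg) hk) hg)
    (fun b hb => by
      change g⁻¹ (k (g b)) = b
      rw [hkB _ (mem_image_of_mem g hb), inv_ap]) ((g⁻¹ : Equiv.Perm C) '' A) (by
      rintro _ ⟨a, ha, rfl⟩
      obtain ⟨x, hx, rfl⟩ := hA ha
      rw [inv_ap]
      exact hx) (small_image _ hAc)
  refine ⟨g * l * g⁻¹, M.G.mul_mem (M.G.mul_mem hg hl) (M.G.inv_mem hg), fun a ha => ?_, ?_⟩
  · change g (l (g⁻¹ a)) = a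
    rw [h1 _ (mem_image_of_mem _ ha), ap_inv]
  · rintro _ ⟨e, he, rfl⟩
    change g (l (g⁻¹ (g e))) = k (g e)
    rw [inv_ap, h2 e he]
    change g (g⁻¹ (k (g e))) = _
    rw [ap_inv]

theorem atomic_smul {N X : Set C} (h : M.Atomic N X)
    {g : Equiv.Perm C} (hg : g ∈ M.G) : M.Atomic (g '' N) (g '' X) := by
  refine ⟨M.S_inv hg h.mem, image_mono h.sub, fun E hE hEc => ?_⟩
  obtain ⟨B, hB, hBc, hiso⟩ := h.iso ((g⁻¹ : Equiv.Perm C) '' E) (by
    rintro _ ⟨e, he, rfl⟩
    obtain ⟨x, hx, rfl⟩ := hE he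
    rw [inv_ap]
    exact hx) (small_image _ hEc)
  refine ⟨g '' B, image_mono hB, small_image g hBc, ?_⟩
  have h1 := isol_map hiso hg
  have h2 : g '' ((g⁻¹ : Equiv.Perm C) '' E) = E := by
    rw [← image_comp]
    have : (g ∘ (g⁻¹ : Equiv.Perm C)) = id := by
      funext a
      exact ap_inv g a
    rw [this, image_id]
  rwa [h2] at h1

theorem image_bd {A B : Finset C → Set C} {s : Finset C} {g : Equiv.Perm C}
    (h : ∀ t, t ⊆ s → B (t.image g) = g '' A t) {t : Finset C} (ht : t ⊆ s) :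
    bd B (t.image g) = g '' bd A t := by
  ext c
  constructor
  · rintro (hc | ⟨r, hr, hc⟩)
    · obtain ⟨x, hx, rfl⟩ := Finset.mem_image.1 hc
      exact ⟨x, Or.inl hx, rfl⟩
    · obtain ⟨r, hrt, rfl⟩ := Finset.subset_image_iff.1 hr.1
      have hrt' : r ⊂ t := by
        refine lt_of_le_of_ne (by exact_mod_cast hrt) ?_
        rintro rfl
        exact hr.2 (Finset.Subset.refl _)
      rw [h r (hrt'.1.trans ht)] at hc
      obtain ⟨x, hx, rfl⟩ := hc
      exact ⟨x, Or.inr ⟨r, hrt', hx⟩, rfl⟩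
  · rintro ⟨x, hx | ⟨r, hr, hx⟩, rfl⟩
    · exact Or.inl (Finset.mem_image_of_mem g hx)
    · refine Or.inr ⟨r.image g, ?_, ?_⟩
      · refine lt_of_le_of_ne (Finset.image_subset_image hr.1) fun h1 => hr.ne ?_
        exact Finset.image_injective g.injective h1
      · rw [h r (hr.1.trans ht)]
        exact mem_image_of_mem g hx

theorem psys_smul {A B : Finset C → Set C} {s : Finset C}
    (hA : M.PSys A s) {g : Equiv.Perm C} (hg : g ∈ M.G)
    (h : ∀ t, t ⊆ s → B (t.image g) = g '' A t) : M.PSys B (s.image g) := by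
  have h0 : B ∅ = g '' A ∅ := by
    have := h ∅ (Finset.empty_subset s)
    rwa [Finset.image_empty] at this
  refine ⟨?_, ?_, ?_⟩
  · rw [h0]
    exact M.S_inv hg hA.memS
  · intro y hy
    obtain ⟨x, hx, rfl⟩ := Finset.mem_image.1 hy
    have h1 : (s.image g).erase (g x) = (s.erase x).image g := by
      rw [Finset.image_erase g.injective]
    rw [h0, h1, h _ (Finset.erase_subset x s), ← image_singleton]
    exact (hA.ind x hx).smul hg
  · intro t ht ht0
    obtain ⟨r, hr, rfl⟩ := Finset.subset_image_iff.1 ht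
    have hr' : r ⊆ s := by exact_mod_cast hr
    rw [h r hr', image_bd h hr']
    exact atomic_smul (hA.atomic r hr' (Finset.image_nonempty.1 ht0)) hg

/-! ### Minimal types -/

variable (M) in
/-- `Q` is the set of realizations of a minimal type over the small set `p`: over every strong
model which contains `p` there is exactly one type of elements of `Q` outside the model. -/
structure Mini (p Q : Set C) : Prop where
  small : #p < M.χ
  inv : ∀ g ∈ M.G, (∀ a ∈ p, g a = a) → ∀ x ∈ Q, g x ∈ Q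
  same : ∀ {V : Set C}, V ∈ M.S → p ⊆ V → ∀ x ∈ Q, x ∉ V → ∀ y ∈ Q, y ∉ V → ∀ D ⊆ V, #D < M.χ →
    ∃ g ∈ M.G, (∀ d ∈ D, g d = d) ∧ g x = y
  unb : ∀ {V : Set C}, V ∈ M.S → p ⊆ V → ∃ x ∈ Q, x ∉ V

variable {p Q : Set C}

/-- Independence depends on the type only. -/
theorem ind_of_same {P V : Set C} {x y : C} (hPV : P ⊆ V) (h : M.Ind P {x} V)
    (hxy : ∀ D ⊆ V, #D < M.χ → ∃ g ∈ M.G, (∀ d ∈ D, g d = d) ∧ g y = x) : M.Ind P {y} V := by
  intro D hD hDc E hE hEc
  obtain ⟨k, hk, h1, h2⟩ := h ((D ∩ P) ∪ {x}) (union_subset (inter_subset_right.trans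
    subset_union_left) subset_union_right) (small_union (small_inter_left _ hDc)
    (small_finite (finite_singleton x))) E hE hEc
  obtain ⟨g, hg, h3, h4⟩ := hxy ((D ∩ P) ∪ (E ∪ k '' E)) (by
    rintro a (ha | ha | ⟨a, ha, rfl⟩)
    · exact hPV ha.2
    · exact hE ha
    · exact hPV (h2 a ha)) (small_union (small_inter_left _ hDc)
      (small_union hEc (small_image k hEc)))
  refine ⟨g⁻¹ * k * g, M.G.mul_mem (M.G.mul_mem (M.G.inv_mem hg) hk) hg, fun a ha => ?_,
    fun b hb => ?_⟩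
  · change g⁻¹ (k (g a)) = a
    by_cases haP : a ∈ P
    · rw [h3 a (Or.inl ⟨ha, haP⟩), h1 a (Or.inl ⟨ha, haP⟩)]
      exact fix_inv (h3 a (Or.inl ⟨ha, haP⟩))
    · have hay : a = y := (hD ha).resolve_left haP
      subst hay
      rw [h4, h1 x (Or.inr rfl), ← h4, inv_ap]
  · change g⁻¹ (k (g b)) ∈ P
    rw [h3 b (Or.inr (Or.inl hb)), fix_inv (h3 _ (Or.inr (Or.inr (mem_image_of_mem k hb))))]
    exact h2 b hb

namespace Mini

variable (hQ : Mini M p Q)

include hQ

/-- Elements of `Q` outside a model are independent from it. -/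
theorem ind (hB : M.Big) {P V : Set C} (hP : P ∈ M.S) (hpP : p ⊆ P) (hV : V ∈ M.S)
    (hPV : P ⊆ V) {b : C} (hb : b ∈ Q) (hbV : b ∉ V) : M.Ind P {b} V := by
  obtain ⟨g, hg, h1, h2⟩ := hB.free hP (small_finite (finite_singleton b)) (M.S_card hV).le
  rw [image_singleton] at h2
  have h3 : g b ∈ Q := hQ.inv g hg (fun a ha => h1 a (hpP ha)) b hb
  have h4 : g b ∉ P := fun h => by
    have h5 := h1 _ h
    rw [g.injective h5] at h
    exact hbV (hPV h)
  have h5 : g b ∉ V := fun h => h4 (h2.inter_sub ⟨rfl, h⟩)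
  exact ind_of_same hPV h2 fun D hD hDc => hQ.same hV (hpP.trans hPV) b hb hbV _ h3 h5 D hD hDc

theorem cl (hM : M.Calc) (hB : M.Big) {A : Finset C → Set C} {s : Finset C} (hA : M.PSys A s)
    (hpA : p ⊆ A ∅) {V : Set C} (hV : V ∈ M.S) (hAV : A ∅ ⊆ V) (hs : ∀ x ∈ s, x ∈ V) {y : C}
    (hy : y ∈ Q) (hyA : y ∈ A s) : y ∈ V := by
  by_contra h
  exact hA.not_ind hM hyA (fun h1 => h (hAV h1)) hs (hQ.ind hB hA.memS hpA hV hAV hy h)

theorem exch (hM : M.Calc) (hB : M.Big) {A : Finset C → Set C} {s : Finset C} {x y : C}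
    (hA : M.PSys A (insert x s)) (hA' : M.PSys A (insert y s)) (hpA : p ⊆ A ∅) (hx : x ∈ Q)
    (hy : y ∈ A (insert x s)) (hys : y ∉ A s) : x ∈ A (insert y s) := by
  by_contra h
  exact PSys.not_ind_exch hM hA hy hys (hA'.point (Finset.Subset.refl _)
    (Finset.mem_insert_self y s)) (hA'.mono (Finset.Subset.refl _) (Finset.subset_insert y s))
    (hQ.ind hB hA.memS hpA (hA'.mem (Finset.Subset.refl _))
      (hA'.mono (Finset.Subset.refl _) (Finset.empty_subset _)) hx h)

end Mini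

/-! ### One step of the systems over a model with an extension without new elements of `Q` -/

variable (M) in
/-- Models are conjugate over small subsets. -/
def ConjS : Prop := ∀ {N N' p : Set C}, N ∈ M.S → N' ∈ M.S → p ⊆ N → p ⊆ N' → #p < M.χ →
  ∃ g ∈ M.G, (∀ a ∈ p, g a = a) ∧ g '' N = N'

/-- If `N'` has no elements of `Q` outside `N`, then no step of a system over `N` for the type of
an element of `N'` adds elements of `Q`. -/
theorem vaught_step (hM : M.Calc) (hD : M.DI) (hc : ConjS M) (hQ : Mini M p Q) {N N' : Set C}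
    (hN : N ∈ M.S) (hN' : N' ∈ M.S) (hpN : p ⊆ N) (hNN : N ⊆ N')
    (hQN : ∀ y ∈ Q, y ∈ N' → y ∈ N) {a : C} (haN : a ∈ N') {A : Finset C → Set C}
    {s : Finset C} {x : C} (hxs : x ∉ s) (hA : M.PSys A (insert x s)) (hA0 : A ∅ = N)
    (hx : ∀ D ⊆ N, #D < M.χ → ∃ g ∈ M.G, (∀ d ∈ D, g d = d) ∧ g a = x) :
    ∀ y ∈ Q, y ∈ A (insert x s) → y ∈ A s := by
  have hsx : s ⊆ insert x s := Finset.subset_insert x s
  have hAs : A s ∈ M.S := hA.mem hsx
  have hNAs : N ⊆ A s := by
    rw [← hA0]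
    exact hA.mono hsx (Finset.empty_subset s)
  -- the base
  obtain ⟨p₁, hp₁, hp₁c, hbase⟩ := hM.based hN (small_finite (M := M) (finite_singleton a))
  have hp2c : #(p ∪ p₁ : Set C) < M.χ := small_union hQ.small hp₁c
  obtain ⟨g, hg, hg1, hg2⟩ := hc hN hAs (p := p ∪ p₁) (union_subset hpN hp₁)
    (union_subset (hpN.trans hNAs) (hp₁.trans hNAs)) hp2c
  -- the type of `g a` over `A s`
  have hxind : M.Ind N {x} (A s) := by
    have h1 := hA.ind x (Finset.mem_insert_self x s)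
    rwa [hA0, Finset.erase_insert hxs] at h1
  have htype : ∀ D ⊆ A s, #D < M.χ → ∃ k ∈ M.G, (∀ d ∈ D, k d = d) ∧ k (g a) = x := by
    intro D hD hDc
    obtain ⟨m, hm, hm1, hm2⟩ := hxind (p ∪ p₁ ∪ {x}) (union_subset_union_left _
      (union_subset hpN hp₁)) (small_union hp2c (small_finite (finite_singleton x))) D hD hDc
    obtain ⟨n, hn, hn1, hn2⟩ := hx (m '' D ∪ (p ∪ p₁)) (by
      rintro c (⟨d, hd, rfl⟩ | hc)
      · exact hm2 d hd
      · exact union_subset hpN hp₁ hc) (small_union (small_image m hDc) hp2c)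
    have hk1 : m⁻¹ * n ∈ M.G := M.G.mul_mem (M.G.inv_mem hm) hn
    have hj : g⁻¹ * (m⁻¹ * n) ∈ M.G := M.G.mul_mem (M.G.inv_mem hg) hk1
    obtain ⟨h, hh, h1, h2, h3⟩ := hbase (g⁻¹ * (m⁻¹ * n)) hj (fun c hc => by
      change g⁻¹ (m⁻¹ (n c)) = c
      rw [hn1 c (Or.inr (Or.inr hc)), fix_inv (hm1 c (Or.inl (Or.inr hc))),
        fix_inv (hg1 c (Or.inr hc))]) (m '' D) (small_image m hDc)
      (Ind.of_sub (by
        rintro _ ⟨d, hd, rfl⟩
        exact hm2 d hd)) (Ind.of_sub (by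
        rintro _ ⟨_, ⟨d, hd, rfl⟩, rfl⟩
        change g⁻¹ (m⁻¹ (n (m d))) ∈ N
        rw [hn1 _ (Or.inl (mem_image_of_mem m hd)), inv_ap]
        have h4 := hD hd
        rw [← hg2] at h4
        obtain ⟨c, hc, hcd⟩ := h4
        rw [← hcd, inv_ap]
        exact hc))
    refine ⟨m⁻¹ * n * h⁻¹ * g⁻¹, M.G.mul_mem (M.G.mul_mem hk1 (M.G.inv_mem hh))
      (M.G.inv_mem hg), fun d hd => ?_, ?_⟩
    · change m⁻¹ (n (h⁻¹ (g⁻¹ d))) = d
      have h4 := h3 (m d) (mem_image_of_mem m hd)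
      have h5 : n (m d) = m d := hn1 _ (Or.inl (mem_image_of_mem m hd))
      have h6 : (g⁻¹ * (m⁻¹ * n)) (m d) = g⁻¹ d := by
        change g⁻¹ (m⁻¹ (n (m d))) = g⁻¹ d
        rw [h5, inv_ap]
      rw [← h6, ← h4, inv_ap, h5, inv_ap]
    · change m⁻¹ (n (h⁻¹ (g⁻¹ (g a)))) = x
      rw [inv_ap, fix_inv (h2 a rfl), hn2]
      exact fix_inv (hm1 x (Or.inr rfl))
  -- the atomic model in `N'`
  obtain ⟨Na, hNa⟩ := hD (fun _ => N) {a} (Finset.singleton_nonempty a) (fun t ht => by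
      rw [Finset.ssubset_singleton_iff] at ht
      subst ht
      refine ⟨hN, by simp, fun t ht h0 => ?_⟩
      rw [Finset.subset_empty.1 ht] at h0
      exact absurd h0 Finset.not_nonempty_empty) (fun z _ => Ind.of_sub Subset.rfl)
  rw [bd_singleton] at hNa
  obtain ⟨k, hk, hk1, hk2⟩ := hNa.exists_embed (f := id) (fun D _ _ => ⟨1, M.G.one_mem,
    fun _ _ => rfl⟩) hN' (by
      rintro c (hc | hc)
      · rw [hc]
        exact haN
      · exact hNN hc)
  have hNb := hNa.image hk hk1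
  -- the iso
  have hat := hA.atomic_over hM hsx
  have hset : A s ∪ (insert x s : Finset C) = {x} ∪ A s := by
    ext c
    rw [Finset.coe_insert]
    constructor
    · rintro (h | h | h)
      · exact Or.inr h
      · exact Or.inl h
      · exact Or.inr (hA.point hsx h)
    · rintro (h | h)
      · exact Or.inr (Or.inl h)
      · exact Or.inl h
  rw [hset] at hat
  have hga : g a ∉ A s ∨ x ∈ A s := by
    by_cases h : g a ∈ A s
    · right
      obtain ⟨k, hk, h1, h2⟩ := htype {g a} (singleton_subset_iff.2 h)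
        (small_finite (finite_singleton _))
      rw [h1 _ rfl] at h2
      rwa [← h2]
    · exact Or.inl h
  let f : C → C := fun c => if c ∈ A s then c else x
  have hf1 : ∀ c ∈ A s, f c = c := fun c hc => if_pos hc
  have hf2 : f (g a) = x := by
    rcases hga with h | h
    · exact if_neg h
    · have h3 : g a = x := by
        obtain ⟨k, hk, h1, h2⟩ := htype {x} (singleton_subset_iff.2 h)
          (small_finite (finite_singleton _))
        have h4 : k (g a) = k x := by rw [h2, h1 x rfl]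
        exact k.injective h4
      rw [h3]
      exact hf1 x h
  have hgNb := atomic_smul hNb hg
  have hset2 : g '' ({a} ∪ N) = {g a} ∪ A s := by
    rw [image_union, image_singleton, hg2]
  rw [hset2] at hgNb
  have hfX : f '' ({g a} ∪ A s) = {x} ∪ A s := by
    rw [image_union, image_singleton, hf2]
    congr 1
    ext c
    constructor
    · rintro ⟨d, hd, rfl⟩
      rw [hf1 d hd]
      exact hd
    · intro hc
      exact ⟨c, hc, hf1 c hc⟩
  obtain ⟨h, hh, hh1, hh2⟩ := hgNb.exists_iso (f := f) (N' := A (insert x s)) (by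
      intro D hD hDc
      obtain ⟨k, hk, h1, h2⟩ := htype (D ∩ A s) inter_subset_right (small_inter_left _ hDc)
      refine ⟨k, hk, fun d hd => ?_⟩
      by_cases hdA : d ∈ A s
      · rw [h1 d ⟨hd, hdA⟩, hf1 d hdA]
      · have h3 : d = g a := (hD hd).resolve_right hdA
        rw [h3, h2, hf2]) (by
      rw [hfX]
      exact hat)
  intro y hy hyA
  rw [← hh2] at hyA
  obtain ⟨_, ⟨b, hb, rfl⟩, hyb⟩ := hyA
  have hw : ∀ c ∈ p, (h * g) c = c := fun c hc => by
    change h (g c) = c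
    rw [hg1 c (Or.inl hc), hh1 c (Or.inr (hNAs (hpN hc))), hf1 c (hNAs (hpN hc))]
  have h1 : b = (h * g)⁻¹ y := by
    rw [← hyb]
    exact (inv_ap (h * g) b).symm
  have hbQ : b ∈ Q := by
    rw [h1]
    exact hQ.inv _ (M.G.inv_mem (M.G.mul_mem hh hg)) (fun c hc => fix_inv (hw c hc)) y hy
  have hbN' : b ∈ N' := by
    obtain ⟨c, hc, rfl⟩ := hb
    exact hk2 c hc
  have hbN := hQN b hbQ hbN'
  rw [← hyb]
  have h2 : g b ∈ A s := by
    rw [← hg2]
    exact mem_image_of_mem g hbN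
  rw [hh1 _ (Or.inr h2), hf1 _ h2]
  exact h2

end Vale.Agent.P307.R2.H718
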