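import Vale.Agent.P307.R2.H541.QS
import Vale.Agent.P307.R2.H718.MinA
import Vale.Agent.P307.R2.H427.Mon2

/-!
The geometry of a minimal type in the saturated member of size `θ⁺`, from the existence of atomic
models over the boundaries of independent systems.
-/

set_option linter.unusedSectionVars false

universe u

open FirstOrder Cardinal Set Function Language

namespace Vale.Agent.P307.R2.H718

open R2.H427 (IsoOn Geo CrossIso Mon)
open Vale.Agent.P307 Vale.Agent.P307.H304 R2.H541 R2.H541.PG R2.H287 R2.H1 R2.H971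
open scoped Classical

variable {L : Language.{u, u}} {K : AEC L} {ℓ θ : Cardinal.{u}}
  {κf α : Cardinal.{u} → Cardinal.{u}} {C : Type u} [L.Structure C]
  (h₀ : BasePt K ℓ κf α θ) (hK : K.IsLS ℓ)
  (hunb : ∀ ν, ν < κf ν ∧ K.CategoricalIn (κf ν)) (hst : Stab K ℓ α (H287.thr κf))
  (hCm : K.mem C) (hs : Sat K θ C) (hCc : #C = Order.succ θ)

include h₀ hK hCm hs hCc in
/-- The saturated member is a monster. -/
theorem mon_of_sat : Mon K θ C where
  mem := hCm
  hom := fun N N' hN hN' hNc φ => hs.exists_aut hK h₀.pt.lt.le hCc N N' hN hN' hNc φ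
  univ := fun M _ hM hMc => Sat.exists_of_cat hK h₀.pt.lt.le h₀.pt.cat hCm
    ((Order.le_succ θ).trans hCc.ge) hM hMc

variable (hDI : (pg h₀ hK hunb hst hCm hs hCc).DI) {p Q : Set C}
  (hQ : Mini (pg h₀ hK hunb hst hCm hs hCc) p Q) (P : L.Substructure C) (hP : K.le P)
  (hPc : #P = θ) (hpP : p ⊆ P)

/-- The prime systems over `P` with points in `Q`. -/
def GPS (A : Finset C → L.Substructure C) (s : Finset C) : Prop :=
  (pg h₀ hK hunb hst hCm hs hCc).PSys (fun t => (A t : Set C)) s ∧ A ∅ = P ∧ ∀ x ∈ s, x ∈ Q \ P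

include hDI hQ hP hPc hpP

/-- The geometry of a minimal type. -/
def geoQ (hnv : ∀ {N N' : L.Substructure C}, K.le N → K.le N' → #N' ≤ θ → P ≤ N → N ≤ N' →
    (∀ y, y ∈ Q → y ∈ N' → y ∈ N) → N = N') : Geo K θ θ P (Q \ P) where
  PS A s := GPS h₀ hK hunb hst hCm hs hCc (Q := Q) P A s
  lb := le_rfl
  congr := by
    rintro A B s h ⟨h1, h2, h3⟩
    refine ⟨h1.congr fun t ht => ?_, ?_, h3⟩
    · rw [h t ht]
    · rw [← h ∅ (Finset.empty_subset s), h2]
  mono := by
    rintro A s t ⟨h1, h2, h3⟩ ht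
    exact ⟨h1.sub ht, h2, fun x hx => h3 x (ht hx)⟩
  empty := by
    intro A hA
    refine ⟨⟨?_, by simp, fun t ht h0 => ?_⟩, hA, by simp⟩
    · rw [hA]
      exact pg_mem' h₀ hK hunb hst hCm hs hCc hP hPc
    · rw [Finset.subset_empty.1 ht] at h0
      exact absurd h0 Finset.not_nonempty_empty
  bot h := h.2.1
  le h := (pg_mem h₀ hK hunb hst hCm hs hCc (h.1.mem (Finset.Subset.refl _))).1
  card h := (pg_mem h₀ hK hunb hst hCm hs hCc (h.1.mem (Finset.Subset.refl _))).2.le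
  memQ h x hx := h.2.2 x hx
  mem h x hx := h.1.point (Finset.Subset.refl _) hx
  int := by
    rintro A s ⟨h1, -, -⟩ t ht t' ht'
    apply SetLike.coe_injective
    rw [Language.Substructure.coe_inf]
    exact h1.inter (pg_calc h₀ hK hunb hst hCm hs hCc) ht ht'
  ext := by
    intro A s N hN hNc hs0 hA hsQ hxs
    have h0 : (∅ : Finset C) ⊂ s := Finset.empty_ssubset.2 hs0
    have hPA : A ∅ = P := (hA ∅ h0).1.2.1
    have hPN : P ≤ N := by
      rw [← hPA]
      exact (hA ∅ h0).2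
    have hNc' : #N = θ := _root_.le_antisymm hNc (by
      rw [← hPc]
      exact mk_le_mk_of_subset hPN)
    have hNS := pg_mem' h₀ hK hunb hst hCm hs hCc hN hNc'
    have hPS := pg_mem' h₀ hK hunb hst hCm hs hCc hP hPc
    have hind : ∀ x ∈ s, (pg h₀ hK hunb hst hCm hs hCc).Ind (A ∅ : Set C) {x}
        (A (s.erase x) : Set C) := by
      intro x hx
      have h1 := (hA _ (Finset.erase_ssubset hx)).1
      have h2 := h1.1.mem (Finset.Subset.refl _)
      rw [hPA]
      refine hQ.ind (pg_big h₀ hK hunb hst hCm hs hCc) hPS hpP h2 ?_ (hsQ x hx).1.1 (hxs x hx)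
      rw [← hPA]
      exact h1.1.mono (Finset.Subset.refl _) (Finset.empty_subset _)
    obtain ⟨B, hBN, hB⟩ := PSys.exists_ext hs0 (fun t ht => (hA t ht).1.1) hind
      (hDI _ s hs0 (fun t ht => (hA t ht).1.1) hind) hNS (fun t ht => (hA t ht).2)
      fun x hx => (hsQ x hx).2
    obtain ⟨D, -, -, hD⟩ := hB.mem (Finset.Subset.refl s)
    rw [update_self] at hD
    subst hD
    refine ⟨D, hBN, hB.congr fun t ht => ?_, ?_, fun x hx => (hsQ x hx).1⟩
    · rcases eq_or_ne t s with rfl | hts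
      · rw [update_self, update_self]
      · rw [update_of_ne hts, update_of_ne hts]
    · rw [update_of_ne h0.ne, hPA]
  cl := by
    rintro A s V ⟨h1, h2, h3⟩ hV hVc hPV hsV y hy hyA
    have hVc' : #V = θ := _root_.le_antisymm hVc (by
      rw [← hPc]
      exact mk_le_mk_of_subset hPV)
    refine hQ.cl (pg_calc h₀ hK hunb hst hCm hs hCc) (pg_big h₀ hK hunb hst hCm hs hCc) h1
      (V := (V : Set C)) ?_ (pg_mem' h₀ hK hunb hst hCm hs hCc hV hVc') ?_ hsV hy.1 hyA
    · rw [h2]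
      exact hpP
    · rw [h2]
      exact hPV
  exch := by
    rintro A s x y ⟨h1, h2, h3⟩ ⟨h1', -, -⟩ hy hyA hys
    refine hQ.exch (pg_calc h₀ hK hunb hst hCm hs hCc) (pg_big h₀ hK hunb hst hCm hs hCc) h1 h1'
      ?_ (h3 x (Finset.mem_insert_self x s)).1 hyA hys
    rw [h2]
    exact hpP
  nv := by
    intro N N' hN hN' hNc hPN hNN h
    exact hnv hN hN' hNc hPN hNN fun y hy hyN => by
      by_cases hyP : y ∈ P
      · exact hPN hyP
      · exact h y ⟨hy, hyP⟩ hyN
  disj := fun y hy => hy.2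

theorem geoQ_inv (hnv : ∀ {N N' : L.Substructure C}, K.le N → K.le N' → #N' ≤ θ → P ≤ N →
    N ≤ N' → (∀ y, y ∈ Q → y ∈ N' → y ∈ N) → N = N') :
    (geoQ h₀ hK hunb hst hCm hs hCc hDI hQ P hP hPc hpP hnv).Inv := by
  intro σ hσ
  have hσP : ∀ x, σ x ∈ P → x ∈ P := fun x hx => by
    have h1 := hσ _ hx
    rw [σ.injective h1] at hx
    exact hx
  have hQσ : ∀ x, x ∈ Q \ P → σ x ∈ Q \ P := fun x hx =>
    ⟨hQ.inv σ.toEquiv (mem_autG σ) (fun a ha => hσ a (hpP ha)) x hx.1, fun h => hx.2 (hσP x h)⟩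
  refine ⟨hQσ, ?_⟩
  rintro A B s ⟨h1, h2, h3⟩ hB
  refine ⟨psys_smul (g := σ.toEquiv) h1 (mem_autG σ) fun t ht => ?_, ?_, ?_⟩
  · have h4 := hB t ht
    change (B (t.image σ) : Set C) = σ '' (A t : Set C)
    rw [h4, coe_map]
  · have h4 := hB ∅ (Finset.empty_subset s)
    rw [Finset.image_empty, h2] at h4
    rw [h4]
    apply SetLike.coe_injective
    rw [coe_map]
    ext x
    constructor
    · rintro ⟨a, ha, rfl⟩
      rw [hσ a ha]
      exact ha
    · intro hx
      exact ⟨x, hx, hσ x hx⟩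
  · intro y hy
    obtain ⟨x, hx, rfl⟩ := Finset.mem_image.1 hy
    exact hQσ x (h3 x hx)

theorem geoQ_crossIso (hnv : ∀ {N N' : L.Substructure C}, K.le N → K.le N' → #N' ≤ θ → P ≤ N →
    N ≤ N' → (∀ y, y ∈ Q → y ∈ N' → y ∈ N) → N = N') :
    CrossIso (geoQ h₀ hK hunb hst hCm hs hCc hDI hQ P hP hPc hpP hnv)
      (geoQ h₀ hK hunb hst hCm hs hCc hDI hQ P hP hPc hpP hnv) (Language.Equiv.refl L P) := by
  rintro A A' s s' ⟨h1, h2, h3⟩ ⟨h1', h2', h3'⟩ e he hes f hf hfe hfP
  rcases s.eq_empty_or_nonempty with rfl | hs0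
  · rw [Finset.image_empty] at hes
    subst hes
    refine ⟨id, fun t ht => absurd ht (Finset.not_ssubset_empty t), ?_, by simp⟩
    rw [h2, h2']
    exact isoOn_id P
  · obtain ⟨g, hg, h4, h5, h6⟩ := h1.exists_iso (pg_calc h₀ hK hunb hst hCm hs hCc) h1' hs0 e he
      hes f (fun t ht => by
        have h7 := pg_mem h₀ hK hunb hst hCm hs hCc (h1.mem ht.1)
        have h8 : t.image e ⊆ s' := by
          rw [← hes]
          exact Finset.image_subset_image ht.1
        exact pg_isoOn h₀ hK hs hCc h7.1 h7.2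
          (pg_mem h₀ hK hunb hst hCm hs hCc (h1'.mem h8)).1 (hf t ht)) hfe (by
        intro x hx D hD hDc
        change D ⊆ (A ∅ : Set C) at hD
        rw [h2] at hD
        have hex := h3' (e x) (by
          rw [← hes]
          exact Finset.mem_image_of_mem e hx)
        obtain ⟨g, hg, h8, h9⟩ := hQ.same (pg_mem' h₀ hK hunb hst hCm hs hCc hP hPc) hpP x
          (h3 x hx).1 (h3 x hx).2 (e x) hex.1 hex.2 D hD hDc
        refine ⟨g, hg, fun d hd => ?_, h9⟩
        rw [h8 d hd]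
        exact (hfP ⟨d, hD hd⟩).symm)
    exact ⟨g, h4, isoOn_of_autG hg h5, h6⟩

end Vale.Agent.P307.R2.H718
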