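import Vale.Agent.P307.R2.H533.One

/-!
A pair of independent models as the boundary of the extension of a system of dimension one.
-/

universe u v

open Set Cardinal Function

namespace Vale.Agent.P307.R2.H718

open Vale.Agent.P307.R2.H541 Vale.Agent.P307.R2.H541.PG Vale.Agent.P307.R2.H533

open scoped Classical

variable {C : Type u} {M : PG C} {P B R : Set C} {ι : Type v} {a c : ι}

/-- The system of a pair: `R` in the direction `a`, `B` in the direction `c`. -/
noncomputable def pairS (a c : ι) (P B R : Set C) (v : Finset ι) : Set C :=
  if c ∈ v then B else if a ∈ v then R else P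

theorem pairS_empty : pairS a c P B R ∅ = P := by simp [pairS]

theorem pairS_left (h : a ≠ c) : pairS a c P B R {a} = R := by
  have h1 : c ∉ ({a} : Finset ι) := fun h2 => h (Finset.mem_singleton.1 h2).symm
  rw [pairS, if_neg h1, if_pos (Finset.mem_singleton_self a)]

theorem pairS_right : pairS a c P B R {c} = B := by
  rw [pairS, if_pos (Finset.mem_singleton_self c)]

theorem pairS_cases (v : Finset ι) (hv : v ∈ ({a} : Finset ι).powerset) : v = ∅ ∨ v = {a} := by
  rw [Finset.mem_powerset, Finset.subset_singleton_iff] at hv
  exact hv

theorem pair_ext1 (hac : a ≠ c) (hP : P ∈ M.S) (hB : B ∈ M.S) (hR : R ∈ M.S) (hPB : P ⊆ B)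
    (hPR : P ⊆ R) (hI : M.Ind P B R) : Ext1 M (pairS a c P B R) ({a} : Finset ι) c where
  sys := by
    refine ⟨⟨down_powerset _, fun t ht => ?_, fun t ht r hr => ?_⟩, fun x E hE hEc => ?_⟩
    · rcases pairS_cases t ht with rfl | rfl
      · rw [pairS_empty]
        exact hP
      · rw [pairS_left hac]
        exact hR
    · rcases pairS_cases t ht with rfl | rfl
      · rw [Finset.subset_empty.1 hr]
      · rcases Finset.subset_singleton_iff.1 hr with rfl | rfl
        · rw [pairS_empty, pairS_left hac]
          exact hPR
        · exact Subset.rfl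
    · by_cases hx : x = a
      · subst hx
        obtain ⟨g, hg, h1, h2⟩ := M.sat hP (A := E ∩ P) (B := E) inter_subset_right
          ((mk_le_mk_of_subset inter_subset_left).trans_lt hEc) hEc
        refine ⟨g, hg, fun v hv e he hev => ?_⟩
        rcases pairS_cases v hv with rfl | rfl
        · rw [pairS_empty] at hev
          rw [Finset.erase_empty, pairS_empty]
          exact ⟨h2 e he, fun _ => h1 e ⟨he, hev⟩⟩
        · rw [Finset.erase_singleton, pairS_empty]
          exact ⟨h2 e he, fun h => absurd (Finset.mem_singleton_self _) h⟩
      · refine ⟨1, M.G.one_mem, fun v hv e _ hev => ⟨?_, fun _ => rfl⟩⟩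
        have h1 : x ∉ v := by
          intro h1
          rcases pairS_cases v hv with rfl | rfl
          · exact absurd h1 (Finset.notMem_empty x)
          · exact hx (Finset.mem_singleton.1 h1)
        rw [Finset.erase_eq_of_notMem h1]
        exact hev
  notMem := fun h => hac (Finset.mem_singleton.1 h).symm
  memc := by
    rw [pairS_right]
    exact hB
  base := by
    rw [pairS_empty, pairS_right]
    exact hPB
  ind := by
    rw [pairS_empty, pairS_right, pairS_left hac]
    exact hI
  atomic := by
    intro u hu hu0
    rw [Finset.ssubset_singleton_iff] at hu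
    exact absurd hu hu0.ne_empty

theorem pair_ibd (hac : a ≠ c) (hPR : P ⊆ R) :
    ibd (pairS a c P B R) (insert c ({a} : Finset ι)) = B ∪ R := by
  ext x
  constructor
  · rintro ⟨v, hv, hx⟩
    by_cases h1 : c ∈ v
    · left
      rw [pairS, if_pos h1] at hx
      exact hx
    · right
      rw [pairS, if_neg h1] at hx
      by_cases h2 : a ∈ v
      · rw [if_pos h2] at hx
        exact hx
      · rw [if_neg h2] at hx
        exact hPR hx
  · rintro (hx | hx)
    · refine ⟨{c}, ?_, ?_⟩
      · refine Finset.ssubset_iff_subset_ne.2 ⟨Finset.singleton_subset_iff.2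
          (Finset.mem_insert_self _ _), fun h => ?_⟩
        have h1 : a ∈ ({c} : Finset ι) := by
          rw [h]
          exact Finset.mem_insert_of_mem (Finset.mem_singleton_self _)
        exact hac (Finset.mem_singleton.1 h1)
      · rw [pairS_right]
        exact hx
    · refine ⟨{a}, ?_, ?_⟩
      · exact Finset.ssubset_insert fun h => hac (Finset.mem_singleton.1 h).symm
      · rw [pairS_left hac]
        exact hx

end Vale.Agent.P307.R2.H718
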