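import Vale.Agent.P307.R2.H27.FullPair

/-!
Prime chains without points of the base.
-/

set_option linter.unusedSectionVars false

universe u

open Set Cardinal Function

namespace Vale.Agent.P307.R2.H718

open Vale.Agent.P307.R2.H541 Vale.Agent.P307.R2.H541.PG Vale.Agent.P307.R2.H650
  Vale.Agent.P307.R2.H913 Vale.Agent.P307.R2.H27

variable {C : Type u} {M : PG C}

/-- Every prime chain has the same union as one all of whose points lie outside the base. -/
theorem exists_thin {P : Set C} (hC : Chn M) {ι : Type u} [LinearOrder ι] [WellFoundedLT ι]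
    {c : ι → C} {Q : ι → Set C} (h : PCh M P c Q) (hc : #(tot P Q) ≤ M.χ) :
    ∃ J : Set ι, #J ≤ M.χ ∧ (∀ i : J, c i ∉ P) ∧ PCh M P (fun i : J => c i) (fun i : J => Q i) ∧
      tot P (fun i : J => Q i) = tot P Q := by
  classical
  let J : Set ι := {i | c i ∉ pre P Q i}
  have hsat : ∀ i, c i ∈ pre P Q i → Q i = pre P Q i := by
    intro i hi
    refine Subset.antisymm ?_ (h.pre_sub i)
    intro e he
    have hpm := h.pre_mem hC hc i
    have hat := h.atomic i
    have h1 : {c i} ∪ pre P Q i = pre P Q i :=
      union_eq_self_of_subset_left (singleton_subset_iff.2 hi)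
    rw [h1] at hat
    obtain ⟨B, hB, hBc, hiso⟩ := hat.iso {e} (singleton_subset_iff.2 he)
      (small_finite (finite_singleton e))
    obtain ⟨g, hg, h2, h3⟩ := M.sat hpm hB hBc (small_finite (finite_singleton e)) (B := {e})
    have h4 := hiso.eq_of_mem hg h2 (h3 e rfl)
    rw [← h4]
    exact h3 e rfl
  have hpre : ∀ i : ι, P ∪ ⋃ j : {j : J // (j : ι) < i}, Q (j : J) = pre P Q i := by
    intro i
    induction i using (wellFounded_lt (α := ι)).induction with
    | h i ih =>
      refine Subset.antisymm ?_ ?_
      · refine union_subset_union_right P (iUnion_subset fun j => ?_)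
        exact subset_iUnion (fun j : Iio i => Q j) ⟨(j : J), j.2⟩
      · refine union_subset subset_union_left (iUnion_subset fun j => ?_)
        by_cases hj : (j : ι) ∈ J
        · exact (subset_iUnion (fun j : {j : J // (j : ι) < i} => Q (j : J))
            ⟨⟨j, hj⟩, j.2⟩).trans subset_union_right
        · have h1 : c (j : ι) ∈ pre P Q j := by
            by_contra h2
            exact hj h2
          rw [hsat j h1, ← ih j j.2]
          refine union_subset_union_right P (iUnion_subset fun k => ?_)
          exact subset_iUnion (fun j : {j : J // (j : ι) < i} => Q (j : J))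
            ⟨k.1, lt_trans k.2 j.2⟩
  have hpre' : ∀ i : J, pre P (fun j : J => Q j) i = pre P Q i := by
    intro i
    rw [← hpre i]
    rfl
  have htot : tot P (fun i : J => Q i) = tot P Q := by
    refine Subset.antisymm (union_subset_union_right P (iUnion_subset fun j =>
      subset_iUnion Q j)) ?_
    refine union_subset subset_union_left (iUnion_subset fun j => ?_)
    by_cases hj : j ∈ J
    · exact sub_tot P (fun i : J => Q i) ⟨j, hj⟩
    · have h1 : c j ∈ pre P Q j := by
        by_contra h2
        exact hj h2
      rw [hsat j h1, ← hpre j]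
      refine union_subset_union_right P (iUnion_subset fun k => ?_)
      exact subset_iUnion (fun i : J => Q i) k.1
  have hP : PCh M P (fun i : J => c i) (fun i : J => Q i) := by
    refine ⟨h.base, fun i => ?_, fun i => ?_⟩
    · rw [hpre' i]
      exact h.ind i
    · rw [hpre' i]
      exact h.atomic i
  refine ⟨J, ?_, fun i hi => i.2 (subset_pre P Q i hi), hP, htot⟩
  refine exists_id hP (by rw [htot]; exact hc) fun i => ?_
  rw [hpre' i]
  exact i.2

end Vale.Agent.P307.R2.H718
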