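import Vale.Agent.P307.R2.H301.Din.Asm
import Vale.Agent.P307.R2.H718.Pair
import Vale.Agent.P307.R2.H718.Thin
import Vale.Agent.P307.R2.H913.LLJ

/-!
Atomic models over a prime chain and an independent model.
-/

set_option linter.unusedSectionVars false

universe u

open FirstOrder Cardinal Set

namespace Vale.Agent.P307.R2.H718

open Vale.Agent.P307 Vale.Agent.P307.H304 Vale.Agent.P307.R2.H287 Vale.Agent.P307.R2.H1
  Vale.Agent.P307.R2.H971 Vale.Agent.P307.R2.H804 Vale.Agent.P307.R2.H533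
  Vale.Agent.P307.R2.H806 Vale.Agent.P307.R2.H301 Vale.Agent.P307.R2.H650
  Language.Structure Language.Substructure
open Vale.Agent.P307.R2.H541 Vale.Agent.P307.R2.H541.PG
open Vale.Agent.P307.R2.H68 (Clo exists_clo)

open scoped Classical

/-- `B` is the union of a prime chain over `P`. -/
def IsPJ {C : Type u} (M : PG C) (P B : Set C) : Prop :=
  ∃ (J : Type u) (_ : LinearOrder J) (_ : WellFoundedLT J) (c : J → C) (Q : J → Set C),
    PCh M P c Q ∧ #J ≤ M.χ ∧ (∀ j, c j ∉ P) ∧ (∀ j, pre P Q j ∈ M.S) ∧ tot P Q = B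

/-- One point. -/
theorem isPJ_one {C : Type u} {M : PG C} {P B : Set C} {c : C} (hP : P ∈ M.S) (hc : c ∉ P)
    (hB : M.Atomic B ({c} ∪ P)) : IsPJ M P B := by
  have hpre : ∀ j : PUnit.{u + 1}, pre P (fun _ : PUnit.{u + 1} => B) j = P := by
    intro j
    have h1 : IsEmpty (Iio j) := ⟨fun x => (lt_irrefl j) (x.2 : x.1 < j)⟩
    rw [pre, iUnion_of_empty, union_empty]
  refine ⟨PUnit.{u + 1}, inferInstance, inferInstance, fun _ => c, fun _ => B,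
    ⟨hP, fun i => ?_, fun i => ?_⟩, ?_, fun _ => hc, fun j => ?_, ?_⟩
  · rw [hpre]
    exact PG.Ind.of_sub Subset.rfl
  · rw [hpre]
    exact hB
  · rw [mk_punit]
    exact one_le_aleph0.trans M.hχ
  · rw [hpre]
    exact hP
  · rw [tot, iUnion_const]
    exact union_eq_self_of_subset_left (subset_union_right.trans hB.sub)

variable {L : Language.{u, u}} (K : AEC L) (ℓ : Cardinal.{u})
  (κf α : Cardinal.{u} → Cardinal.{u})

/-- The behaviour of the closed traces of the pairs of models one of which is the union of a prime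
chain. -/
def GdJ (θ τ : Cardinal.{u}) : Prop :=
  ∀ (h₀ : BasePt K ℓ κf α θ) (hK : K.IsLS ℓ) (hunb : ∀ ν, ν < κf ν ∧ K.CategoricalIn (κf ν))
    (hst : Stab K ℓ α (H287.thr κf)) (C : Type u) [L.Structure C] (hCm : K.mem C)
    (hs : Sat K θ C) (hCc : #C = Order.succ θ) (ι : Type u) (A : Finset ι → Set C)
    (S : Finset ι) (c : ι), S.card = 1 → Ext1 (pg h₀ hK hunb hst hCm hs hCc) A S c →
      IsPJ (pg h₀ hK hunb hst hCm hs hCc) (A ∅) (A {c}) →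
      Gd (pg h₀ hK hunb hst hCm hs hCc) τ A S c

/-- Atomic models over a model and an independent prime extension by one point. -/
def Pt1U (θ : Cardinal.{u}) : Prop :=
  ∀ (h₀ : BasePt K ℓ κf α θ) (hK : K.IsLS ℓ) (hunb : ∀ ν, ν < κf ν ∧ K.CategoricalIn (κf ν))
    (hst : Stab K ℓ α (H287.thr κf)) (C : Type u) [L.Structure C] (hCm : K.mem C)
    (hs : Sat K θ C) (hCc : #C = Order.succ θ), Pt1 (pg h₀ hK hunb hst hCm hs hCc)

/-- Atomic models over a prime chain and an independent model. -/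
def TopJU (θ : Cardinal.{u}) : Prop :=
  ∀ (h₀ : BasePt K ℓ κf α θ) (hK : K.IsLS ℓ) (hunb : ∀ ν, ν < κf ν ∧ K.CategoricalIn (κf ν))
    (hst : Stab K ℓ α (H287.thr κf)) (C : Type u) [L.Structure C] (hCm : K.mem C)
    (hs : Sat K θ C) (hCc : #C = Order.succ θ), H27.TopJ (pg h₀ hK hunb hst hCm hs hCc)

variable {K ℓ κf α}

theorem not_nonempty_of_card_one {ι : Type u} {S u : Finset ι} (hS : S.card = 1) (hu : u ⊂ S) :
    ¬ u.Nonempty := by
  intro h2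
  have h3 := Finset.card_lt_card hu
  have h4 := Finset.card_pos.2 h2
  omega

/-- **One point.** -/
theorem ev_pt1 (hC : Ev K ℓ κf α (ChnU K ℓ κf α)) (hT : Ev K ℓ κf α (TmU K ℓ κf α 1))
    (h1 : Ev2 K ℓ κf α (Tiny1 K ℓ κf α)) (hG : Ev2 K ℓ κf α (GdJ K ℓ κf α)) :
    Ev K ℓ κf α (Pt1U K ℓ κf α) := by
  obtain ⟨r₁, hC⟩ := hC
  obtain ⟨r₂, hT⟩ := hT
  obtain ⟨r₃, h1⟩ := h1
  obtain ⟨r₄, hG⟩ := hG
  let r := max (max r₁ r₂) (max r₃ r₄)
  have hr1 : r₁ ≤ r := (le_max_left _ _).trans (le_max_left _ _)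
  have hr2 : r₂ ≤ r := (le_max_right _ _).trans (le_max_left _ _)
  have hr3 : r₃ ≤ r := (le_max_left _ _).trans (le_max_right _ _)
  have hr4 : r₄ ≤ r := (le_max_right _ _).trans (le_max_right _ _)
  refine ⟨r + 1, fun θ hθ h₀ hK hunb hst C _ hCm hs hCc P hP R hR hPR c₀ B hI hB => ?_⟩
  have hθr := hθ.pred
  set M := pg h₀ hK hunb hst hCm hs hCc with hMdef
  by_cases hc₀ : c₀ ∈ P
  · -- the point lies in the base
    refine ⟨R, hR, union_subset Subset.rfl fun x hx => ?_, fun E hE hEc => ⟨E, hE.trans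
      subset_union_left, hEc, Isol.self Subset.rfl⟩⟩
    obtain ⟨b, hb, hbc, hb'⟩ := hB.iso {x} (singleton_subset_iff.2 hx)
      ((mk_singleton x).trans_lt (one_lt_aleph0.trans_le M.hχ))
    have h2 : ({c₀} ∪ P : Set C) = P := union_eq_self_of_subset_left (singleton_subset_iff.2 hc₀)
    rw [h2] at hb hb'
    obtain ⟨g, hg, hg1, hg2⟩ := M.sat hP hb hbc
      (B := {x}) ((mk_singleton x).trans_lt (one_lt_aleph0.trans_le M.hχ))
    have hgx : g x ∈ P := hg2 x rfl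
    obtain ⟨k, -, h3, h4⟩ := hb' g hg hg1 {g x} (singleton_subset_iff.2 hgx)
      ((mk_singleton _).trans_lt (one_lt_aleph0.trans_le M.hχ))
    have h5 : g x = x := k.injective ((h3 (g x) rfl).trans (h4 x rfl).symm)
    rw [h5] at hgx
    exact hPR hgx
  have hIB : M.Ind P B R := hB.dom hI
  have hPB : P ⊆ B := subset_union_right.trans hB.sub
  -- the system
  obtain ⟨a, c, hac⟩ : ∃ a c : ULift.{u} Bool, a ≠ c := ⟨⟨false⟩, ⟨true⟩, by simp⟩
  have hE : Ext1 M (pairS a c P B R) {a} c := pair_ext1 hac hP hB.mem hR hPB hPR hIB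
  have hPJ : IsPJ M (pairS a c P B R ∅) (pairS a c P B R {c}) := by
    rw [pairS_empty, pairS_right]
    exact isPJ_one hP hc₀ hB
  have hat : M.Atomic (pairS a c P B R {c}) ({c₀} ∪ pairS a c P B R ∅) := by
    rw [pairS_empty, pairS_right]
    exact hB
  have hS0 : ({a} : Finset (ULift.{u} Bool)).Nonempty := Finset.singleton_nonempty a
  have hS1 : ({a} : Finset (ULift.{u} Bool)).card = 1 := Finset.card_singleton a
  rw [union_comm, ← pair_ibd (B := B) hac hPR]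
  refine pg_exists_top' h₀ hK hunb hst hCm hs hCc (mk_ibd h₀ hK hunb hst hCm hs hCc hE)
    (hT θ (hθr.mono hr2) h₀ hK hunb hst C hCm hs hCc _ _ _ c hS0 hS1.le hE) fun σ hσ => ?_
  obtain ⟨τ, hστ, hτθ, hτr⟩ := hθ.exists_btw hσ
  have hτ := hτr.base
  obtain ⟨hJ, hBd⟩ := hG θ τ hτθ (hθr.mono hr4) (hτr.mono hr4) h₀ hK hunb hst C hCm hs hCc _ _ _ c
    hS1 hE hPJ
  refine ⟨τ, hστ, hτ, hτθ, ?_, hBd⟩
  obtain ⟨φ, h2, h3⟩ := exists_clo_good h₀ hK hunb hst hCm hs hCc hE hS0 hτ hτθ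
    (fun u hu h => absurd h (not_nonempty_of_card_one hS1 hu)) hJ
  have hτ0 := aleph0_le_pt hτ hK
  obtain ⟨h4, h5⟩ := h3 (fun s => φ s ∪ {c₀}) fun s => subset_union_left
  have hφ : ∀ s, #(φ s ∪ {c₀} : Set C) ≤ τ := fun s => (mk_union_le _ _).trans
    (add_le_of_le hτ0 (h2 s) ((mk_singleton c₀).le.trans (one_le_aleph0.trans hτ0)))
  have hpZ : ∀ z ∈ ({H | Clo (fun s => φ s ∪ {c₀}) H ∧ #H ≤ τ} : Set (Set C)), {c₀} ⊆ z :=
    fun z hz => subset_union_right.trans (hz.1 ∅ (by simp))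
  refine ⟨fun s => φ s ∪ {c₀}, trX_of h₀ hK hunb hst hCm hs hCc hτ hτθ
    (pgLv h₀ hK hunb hst hCm hs hCc hτ hτθ) rfl hφ h4 h5
    (tmAt_of hK hunb hst hτ (hT τ (hτr.mono hr2)) hS0 hS1.le) ?_⟩
  intro I _ _ _ hI' z hz hzc hzτ f hf
  refine pg_lim_point h₀ hK hunb hst hCm hs hCc hτ hτθ h4 (fun z hz => hz.2) h5
    (chnAt_of hK hunb hst hτ (hC τ (hτr.mono hr1))) (finite_singleton c₀) hpZ hat
    (fun z _ E hE' hEc => ?_) hz (fun i => ⟨hzc i, hzτ i⟩) ?_ hf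
  · exact h1 θ τ hτθ (hθr.mono hr3) (hτr.mono hr3) h₀ hK hunb hst C hCm hs hCc _ _ _
      (hE.sys.mem (Finset.empty_subset _)) (finite_singleton c₀) hat E
      (hE'.trans inter_subset_left) hEc
  · exact Zc.iUnion hτ0 hI' z hz fun i => ⟨hzc i, hzτ i⟩

/-- **Prime chains.** -/
theorem ev_topJ (hF : Frame K ℓ κf α) (hC : Ev K ℓ κf α (ChnU K ℓ κf α))
    (hT : Ev K ℓ κf α (TmU K ℓ κf α 1)) (hG : Ev2 K ℓ κf α (GdJ K ℓ κf α))
    (h1 : Ev K ℓ κf α (Pt1U K ℓ κf α)) : Ev K ℓ κf α (TopJU K ℓ κf α) := by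
  obtain ⟨r₁, hC⟩ := hC
  obtain ⟨r₂, hT⟩ := hT
  obtain ⟨r₃, h1⟩ := h1
  obtain ⟨r₄, hG⟩ := hG
  let r := max (max r₁ r₂) (max r₃ r₄)
  have hr1 : r₁ ≤ r := (le_max_left _ _).trans (le_max_left _ _)
  have hr2 : r₂ ≤ r := (le_max_right _ _).trans (le_max_left _ _)
  have hr3 : r₃ ≤ r := (le_max_left _ _).trans (le_max_right _ _)
  have hr4 : r₄ ≤ r := (le_max_right _ _).trans (le_max_right _ _)
  refine ⟨r + 1, fun θ hθ h₀ hK hunb hst C _ hCm hs hCc ι₀ _ _ P c₀ Q₀ hch₀ _ htot₀ R hR hPR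
    hI₀ => ?_⟩
  have hθr := hθ.pred
  obtain ⟨Λ, hθΛ, hΛ⟩ := hF.exists_gt θ
  set M := pg h₀ hK hunb hst hCm hs hCc with hMdef
  have hChn : Chn M := hC θ (hθr.mono hr1) h₀ hK hunb hst C hCm hs hCc
  -- the points outside the base
  obtain ⟨J, hJc, hcP, hch, htot⟩ := exists_thin hChn hch₀ htot₀
  rw [← htot] at hI₀ htot₀ ⊢
  set B : Set C := tot P (fun i : J => Q₀ i) with hBdef
  have hBS : B ∈ M.S := hch.tot_mem hChn htot₀
  have hpre : ∀ j, pre P (fun i : J => Q₀ i) j ∈ M.S := hch.pre_mem hChn htot₀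
  have hPB : P ⊆ B := subset_tot P _
  have hPJ : IsPJ M P B := ⟨J, inferInstance, inferInstance, fun i => c₀ i, fun i => Q₀ i, hch,
    hJc, hcP, hpre, rfl⟩
  -- the system
  obtain ⟨a, c, hac⟩ : ∃ a c : ULift.{u} Bool, a ≠ c := ⟨⟨false⟩, ⟨true⟩, by simp⟩
  have hE : Ext1 M (pairS a c P B R) {a} c := pair_ext1 hac hch.base hBS hR hPB hPR hI₀
  have hPJ' : IsPJ M (pairS a c P B R ∅) (pairS a c P B R {c}) := by
    rw [pairS_empty, pairS_right]
    exact hPJ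
  have hS0 : ({a} : Finset (ULift.{u} Bool)).Nonempty := Finset.singleton_nonempty a
  have hS1 : ({a} : Finset (ULift.{u} Bool)).card = 1 := Finset.card_singleton a
  rw [← pair_ibd (B := B) hac hPR]
  refine pg_exists_top' h₀ hK hunb hst hCm hs hCc (mk_ibd h₀ hK hunb hst hCm hs hCc hE)
    (hT θ (hθr.mono hr2) h₀ hK hunb hst C hCm hs hCc _ _ _ c hS0 hS1.le hE) fun σ hσ => ?_
  obtain ⟨τ, hστ, hτθ, hτr⟩ := hθ.exists_btw hσ
  have hτ := hτr.base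
  obtain ⟨hJ, hBd⟩ := hG θ τ hτθ (hθr.mono hr4) (hτr.mono hr4) h₀ hK hunb hst C hCm hs hCc _ _ _ c
    hS1 hE hPJ'
  refine ⟨τ, hστ, hτ, hτθ, ?_, hBd⟩
  obtain ⟨φ, h2, h3⟩ := exists_clo_good h₀ hK hunb hst hCm hs hCc hE hS0 hτ hτθ
    (fun u hu h => absurd h (not_nonempty_of_card_one hS1 hu)) hJ
  have hτ0 := aleph0_le_pt hτ hK
  have hCh' := chnAt_of hK hunb hst hτ (C := C) (hC τ (hτr.mono hr1))
  obtain ⟨ψ, hψ, hψ'⟩ := H913.pg_llj h₀ hK hunb hst hCm hs hCc hΛ hθΛ hτ hτθ hCh'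
    (fun C' hC' hC'c hC's => h1 τ (hτr.mono hr3) hτ hK hunb hst C' (K.mem_of_le _ hC').1 hC's hC'c)
    hch hcP hpre hBS hR hPR hI₀
  obtain ⟨h4, h5⟩ := h3 (fun s => φ s ∪ ψ s) fun s => subset_union_left
  have hφ : ∀ s, #(φ s ∪ ψ s : Set C) ≤ τ := fun s => (mk_union_le _ _).trans
    (add_le_of_le hτ0 (h2 s) (hψ s))
  refine ⟨fun s => φ s ∪ ψ s, trX_of h₀ hK hunb hst hCm hs hCc hτ hτθ
    (pgLv h₀ hK hunb hst hCm hs hCc hτ hτθ) rfl hφ h4 h5
    (tmAt_of hK hunb hst hτ (hT τ (hτr.mono hr2)) hS0 hS1.le) ?_⟩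
  intro I _ _ _ hI' z hz hzc hzτ f hf
  rw [pair_ibd hac hPR] at hf ⊢
  exact hψ' I hI' z hz (fun i => clo_right (hzc i)) hzτ f hf

end Vale.Agent.P307.R2.H718
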