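import Vale.Agent.P307.R2.H718.Ladder
import Vale.Agent.P307.R2.H427.MapPG
import Vale.Agent.P307.R2.H68.AllD

/-!
The statement of the induction in dimension zero.
-/

universe u

open FirstOrder Cardinal Set Function Language

namespace Vale.Agent.P307.R2.H718

open Vale.Agent.P307 Vale.Agent.P307.H304 R2.H541 R2.H541.PG R2.H287 R2.H1 R2.H971 R2.H533

open scoped Classical

/-- The boundary of the one-step extension of a system of dimension zero. -/
theorem ibd_zero {C ι : Type u} (A : Finset ι → Set C) (c : ι) : ibd A (insert c ∅) = A ∅ := by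
  ext x
  constructor
  · rintro ⟨r, hr, hx⟩
    have h2 : r = ∅ := by
      rw [insert_empty_eq] at hr
      exact Finset.ssubset_singleton_iff.1 hr
    rwa [h2] at hx
  · intro hx
    exact ⟨∅, Finset.empty_ssubset.2 (Finset.insert_nonempty c ∅), hx⟩

/-- Small isolated tuples over a model lie in the model. -/
theorem sub_of_isol {C : Type u} {M : PG C} {P B e : Set C} (hP : P ∈ M.S) (hB : B ⊆ P)
    (hBc : #B < M.χ) (he : #e < M.χ) (h : M.Isol B P e) : e ⊆ P := by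
  obtain ⟨g, hg, h1, h2⟩ := M.sat hP hB hBc he
  have hge : g '' e ⊆ P := by
    rintro _ ⟨x, hx, rfl⟩
    exact h2 x hx
  obtain ⟨k, -, h3, h4⟩ := h g hg h1 (g '' e) hge (mk_image_le.trans_lt he)
  intro x hx
  have h5 : k (g x) = g x := h3 _ (mem_image_of_mem g hx)
  have h6 : g x = x := k.injective (h5.trans (h4 x hx).symm)
  rw [← h6]
  exact h2 x hx

variable {L : Language.{u, u}} {K : AEC L} {ℓ : Cardinal.{u}}
  {κf α : Cardinal.{u} → Cardinal.{u}}

theorem tmD_zero (θ : Cardinal.{u}) : TmD K ℓ κf α 0 θ := by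
  intro h₀ hK hunb hst C _ hCm hs hCc ι A S c hS hE
  rw [Nat.le_zero, Finset.card_eq_zero] at hS
  subst hS
  rw [ibd_zero]
  exact pg_tm_mem h₀ hK hunb hst hCm hs hCc (hE.sys.mem (Finset.empty_subset _))

theorem jrD_zero (r : ℕ) (θ : Cardinal.{u}) : JrD K ℓ κf α r 0 θ := by
  intro h₀ hK hunb hst C _ hCm hs hCc ι A S c hS hE N hN hXN τ hτ hr
  rw [Nat.le_zero, Finset.card_eq_zero] at hS
  subst hS
  have hb := hr.base
  obtain ⟨φ, h1, h2⟩ := H68.exists_closure_all h₀ hK hunb hst hCm hs hCc hb.pt.lt hb.pow hτ.le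
    (hE.sys.mem (Finset.empty_subset _))
  refine ⟨φ, h1, fun H hH hHc E hE' hEc q hq hqc => ?_⟩
  have hEA : E ⊆ A ∅ := by
    intro x hx
    obtain ⟨v, hv, hxv⟩ := hE' hx
    have h3 : v = ∅ := by
      rw [insert_empty_eq] at hv
      exact Finset.ssubset_singleton_iff.1 (Finset.mem_ssubsets.1 hv)
    rwa [h3] at hxv
  obtain ⟨-, -, h3⟩ := h2 H hH
  obtain ⟨q₀, h4, -, h5⟩ := (h3 (max #E #q) (max_lt hEc hqc)).1 E hEA (le_max_left _ _)
  obtain ⟨g, hg, h6, h7⟩ := h5 q (hq.trans inter_subset_right) (le_max_right _ _)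
  refine ⟨g, hg, h6, fun v hv e he _ => ?_⟩
  have h8 : v = ∅ := by
    rw [insert_empty_eq] at hv
    exact Finset.ssubset_singleton_iff.1 (Finset.mem_ssubsets.1 hv)
  rw [h8]
  exact h4 (h7 e he)

theorem shD_zero (r : ℕ) (θ : Cardinal.{u}) : ShD K ℓ κf α r 0 θ := by
  intro h₀ hK hunb hst C _ hCm hs hCc ι A S c hS hE N hN hXN τ hτ hr
  rw [Nat.le_zero, Finset.card_eq_zero] at hS
  subst hS
  rw [ibd_zero]
  refine ⟨fun _ => ∅, fun _ => ?_, fun H _ _ e he hec ⟨B, h1, h2, h3⟩ => ?_⟩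
  · rw [mk_eq_zero]
    exact zero_le
  · have h4 := sub_of_isol (hE.sys.mem (Finset.empty_subset _)) h1 h2
      (hec.trans (show τ < _ from hτ)) h3
    exact ⟨e, subset_inter h4 (he.trans inter_subset_right), hec, Isol.self Subset.rfl⟩

/-- **Dimension zero.** -/
theorem pp_zero (r : ℕ) (θ : Cardinal.{u}) : PP K ℓ κf α r 0 θ :=
  ⟨tops_zero θ, tmD_zero θ, jrD_zero r θ, shD_zero r θ⟩

variable (K ℓ κf α) in
/-- One step of the induction for the statement. -/
def PStep : Prop := ∀ k r : ℕ, ∃ r', ∀ θ, Rk K ℓ κf α r' θ →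
  (∀ τ ≤ θ, Rk K ℓ κf α r τ → PP K ℓ κf α r k τ) → PP K ℓ κf α r' (k + 1) θ

theorem PStep.ladder (h : PStep K ℓ κf α) : Ladder K ℓ κf α (PP K ℓ κf α) :=
  ⟨⟨0, fun θ _ => pp_zero 0 θ⟩, h, fun _ _ _ h => h.tops⟩

/-- **The question** from one step of the induction for the statement. -/
theorem q1_of_pStep (H : ∀ (L : Language.{u, u}) (K : AEC L) (ℓ : Cardinal.{u})
      (κf α : Cardinal.{u} → Cardinal.{u}), Frame K ℓ κf α → PStep K ℓ κf α)
    (l : Cardinal.{u}) :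
    ∃ μ : Cardinal.{u}, l ≤ μ ∧ ∀ (L : Language.{u, u}) (K : AEC L), K.LS ≤ l →
      ∀ κ, μ ≤ κ → K.CategoricalIn κ → ∀ κ', μ ≤ κ' → K.CategoricalIn κ' :=
  q1_of_ladder (fun L K ℓ κf α hF => ⟨_, (H L K ℓ κf α hF).ladder⟩) l

end Vale.Agent.P307.R2.H718
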